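import Mathlib

set_option autoImplicit false

namespace Vale.Agent.P100

/-- `(u, v)` is a positive solution of the Henon-Lane-Emden system `-Δ u = |x|^A v^p`,
`-Δ v = |x|^B u^q` on the open ball of radius `R` about the origin minus the origin, continuous on
the ball. -/
structure IsPositiveBallSolution (n : ℕ) (p q A B R : ℝ)
    (u v : EuclideanSpace ℝ (Fin n) → ℝ) : Prop where
  contDiffOn_u : ContDiffOn ℝ 2 u (Metric.ball 0 R \ {0})
  contDiffOn_v : ContDiffOn ℝ 2 v (Metric.ball 0 R \ {0})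
  continuousOn_u : ContinuousOn u (Metric.ball 0 R)
  continuousOn_v : ContinuousOn v (Metric.ball 0 R)
  pos_u : ∀ x ∈ Metric.ball 0 R, 0 < u x
  pos_v : ∀ x ∈ Metric.ball 0 R, 0 < v x
  eq_u : ∀ x ∈ Metric.ball 0 R, x ≠ 0 → -(Laplacian.laplacian u x) = ‖x‖ ^ A * v x ^ p
  eq_v : ∀ x ∈ Metric.ball 0 R, x ≠ 0 → -(Laplacian.laplacian v x) = ‖x‖ ^ B * u x ^ q

/-- `(u, v)` is a positive `C^2` solution of the Lane-Emden system `-Δ u = v^p`, `-Δ v = u^q` in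
the open set `Ω`. -/
structure IsPositiveLaneEmdenSolution (n : ℕ) (p q : ℝ) (Ω : Set (EuclideanSpace ℝ (Fin n)))
    (u v : EuclideanSpace ℝ (Fin n) → ℝ) : Prop where
  contDiffOn_u : ContDiffOn ℝ 2 u Ω
  contDiffOn_v : ContDiffOn ℝ 2 v Ω
  pos_u : ∀ x ∈ Ω, 0 < u x
  pos_v : ∀ x ∈ Ω, 0 < v x
  eq_u : ∀ x ∈ Ω, -(Laplacian.laplacian u x) = v x ^ p
  eq_v : ∀ x ∈ Ω, -(Laplacian.laplacian v x) = u x ^ q

end Vale.Agent.P100
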