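import Mathlib
import Vale.Agent.P100.Bdl.B1
import Vale.Agent.P100.Bdl.B3

set_option linter.all false

/-! # P100, local version of the running-minimum proof, part 1 (helper373)

The functions are globally regular and positive; the system is only assumed on `0 < |x| < e^L`. -/

open MeasureTheory Set Filter Topology Real

namespace Vale.Agent.P100.RM

noncomputable section

/-- Positive, globally regular functions which solve the system on `0 < |x| < e^L`. -/
structure LSol (n : ℕ) (p q A B L : ℝ) (u v : E n → ℝ) : Prop where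
  contDiffOn_u : ContDiffOn ℝ 2 u {0}ᶜ
  contDiffOn_v : ContDiffOn ℝ 2 v {0}ᶜ
  continuous_u : Continuous u
  continuous_v : Continuous v
  pos_u : ∀ x, 0 < u x
  pos_v : ∀ x, 0 < v x
  eq_u : ∀ x, x ≠ 0 → ‖x‖ < exp L → -(Laplacian.laplacian u x) = ‖x‖ ^ A * v x ^ p
  eq_v : ∀ x, x ≠ 0 → ‖x‖ < exp L → -(Laplacian.laplacian v x) = ‖x‖ ^ B * u x ^ q

variable {n : ℕ}

theorem LSol.symm {p q A B L : ℝ} {u v : E n → ℝ} (h : LSol n p q A B L u v) :
    LSol n q p B A L v u :=
  ⟨h.contDiffOn_v, h.contDiffOn_u, h.continuous_v, h.continuous_u, h.pos_v, h.pos_u, h.eq_v, h.eq_u⟩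

theorem LSol.mono {p q A B L L' : ℝ} {u v : E n → ℝ} (h : LSol n p q A B L u v) (hL : L' ≤ L) :
    LSol n p q A B L' u v :=
  ⟨h.contDiffOn_u, h.contDiffOn_v, h.continuous_u, h.continuous_v, h.pos_u, h.pos_v,
    fun x hx hx1 => h.eq_u x hx (hx1.trans_le (exp_le_exp.2 hL)),
    fun x hx hx1 => h.eq_v x hx (hx1.trans_le (exp_le_exp.2 hL))⟩

/-- Scaling of solutions. -/
lemma scl_lsol {p q A B α β L : ℝ} {u v : E n → ℝ} (hs : LSol n p q A B L u v)
    (h1 : α + 2 + A = β * p) (h2 : β + 2 + B = α * q) (t : ℝ) :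
    LSol n p q A B (L - t) (scl α t u) (scl β t v) := by
  have hR : 0 < exp t := exp_pos t
  have hsm : ContDiff ℝ 2 fun x : E n => exp t • x := contDiff_const_smul _
  have hmaps : MapsTo (fun x : E n => exp t • x) {0}ᶜ {0}ᶜ := fun x hx =>
    smul_ne_zero hR.ne' hx
  have key : ∀ (w z : E n → ℝ) (P A' a b : ℝ), (∀ x, 0 < z x) →
      (∀ x, x ≠ 0 → ‖x‖ < exp L → -(Laplacian.laplacian w x) = ‖x‖ ^ A' * z x ^ P) →
      a + 2 + A' = b * P →
      ∀ x, x ≠ 0 → ‖x‖ < exp (L - t) →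
      -(Laplacian.laplacian (fun x => exp (a * t) * w (exp t • x)) x) =
        ‖x‖ ^ A' * (exp (b * t) * z (exp t • x)) ^ P := by
    intro w z P A' a b hz he hab x hx hxL
    have hxL' : ‖exp t • x‖ < exp L := by
      rw [norm_smul, Real.norm_of_nonneg hR.le]
      calc exp t * ‖x‖ < exp t * exp (L - t) := mul_lt_mul_of_pos_left hxL hR
        _ = exp L := by rw [← exp_add]; ring_nf
    rw [laplacian_scale, ← mul_neg, he _ (smul_ne_zero hR.ne' hx) hxL', norm_smul,
      Real.norm_of_nonneg hR.le,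
      Real.mul_rpow hR.le (norm_nonneg x), Real.mul_rpow (exp_pos _).le (hz _).le,
      ← Real.exp_mul, ← Real.exp_mul]
    have e1 : exp (b * t * P) = exp (a * t) * exp t ^ 2 * exp (t * A') := by
      rw [← Real.exp_nat_mul, ← Real.exp_add, ← Real.exp_add]
      congr 1
      have : b * t * P = b * P * t := by ring
      rw [this, ← hab]
      push_cast
      ring
    rw [e1]
    ring
  exact ⟨contDiffOn_const.mul (hs.contDiffOn_u.comp hsm.contDiffOn hmaps),
    contDiffOn_const.mul (hs.contDiffOn_v.comp hsm.contDiffOn hmaps),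
    continuous_const.mul (hs.continuous_u.comp (continuous_const_smul _)),
    continuous_const.mul (hs.continuous_v.comp (continuous_const_smul _)),
    fun x => mul_pos (exp_pos _) (hs.pos_u _), fun x => mul_pos (exp_pos _) (hs.pos_v _),
    key u v p A α β hs.pos_v hs.eq_u h1, key v u q B β α hs.pos_u hs.eq_v h2⟩

end

end Vale.Agent.P100.RM


open MeasureTheory Metric Set Filter Topology InnerProductSpace Module

namespace Vale.Agent.P100.RM

variable {n : ℕ}

theorem grad_boundL (hn : 3 ≤ n) : ∃ C : ℝ, 0 < C ∧ ∀ (p q A B : ℝ), -2 < A → -2 < B → 0 < p →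
    0 < q → ∀ (L : ℝ) (u v : E n → ℝ), LSol n p q A B L u v → ∀ x : E n, x ≠ 0 →
    ∀ h : ℝ, 0 < h → h < ‖x‖ → ‖x‖ + h < Real.exp L → ENNReal.ofReal ‖fderiv ℝ u x‖ ≤ ENNReal.ofReal (C / h * u x) +
      ENNReal.ofReal C * ∫⁻ y in Metric.ball x h,
        ENNReal.ofReal (‖x - y‖ ^ (-((n : ℝ) - 1)) * (‖y‖ ^ A * v y ^ p)) := by
  obtain ⟨C, hC, hb⟩ := Gr.grad_super hn
  refine ⟨C, hC, ?_⟩
  intro p q A B _ _ _ _ L u v hs x hx h hh hhx hhL
  have hne : ∀ y ∈ closedBall x h, y ≠ 0 := by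
    rintro y hy rfl
    rw [mem_closedBall, dist_eq_norm, zero_sub, norm_neg] at hy
    linarith only [hhx, hy]
  have hlap : ∀ y ∈ closedBall x h, Laplacian.laplacian u y = -(‖y‖ ^ A * v y ^ p) := by
    intro y hy
    have hyL : ‖y‖ < Real.exp L := by
      rw [mem_closedBall, dist_eq_norm] at hy
      have := norm_sub_norm_le y x
      linarith only [this, hy, hhL]
    have := hs.eq_u y (hne y hy) hyL
    linarith only [this]
  have hsrc : ∀ y, 0 ≤ ‖y‖ ^ A * v y ^ p := fun y =>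
    mul_nonneg (Real.rpow_nonneg (norm_nonneg y) _) (Real.rpow_nonneg (hs.pos_v y).le _)
  have key := hb u {0}ᶜ x h hh isOpen_compl_singleton (fun y hy => hne y hy) hs.contDiffOn_u
    (fun y hy => ⟨(hs.pos_u y).le, by rw [hlap y hy]; linarith only [hsrc y]⟩)
  have k1 : ENNReal.ofReal (∫ y in closedBall x (h / 2),
      (‖x - y‖ ^ (n - 1))⁻¹ * |Laplacian.laplacian u y|) ≤
      ∫⁻ y in Metric.ball x h,
        ENNReal.ofReal (‖x - y‖ ^ (-((n : ℝ) - 1)) * (‖y‖ ^ A * v y ^ p)) := by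
    have h1 : ENNReal.ofReal (∫ y in closedBall x (h / 2),
        (‖x - y‖ ^ (n - 1))⁻¹ * |Laplacian.laplacian u y|) ≤
        ∫⁻ y in closedBall x (h / 2),
          ‖(‖x - y‖ ^ (n - 1))⁻¹ * |Laplacian.laplacian u y|‖ₑ := by
      refine le_trans ?_ (enorm_integral_le_lintegral_enorm _)
      rw [Real.enorm_eq_ofReal_abs]
      exact ENNReal.ofReal_le_ofReal (le_abs_self _)
    refine h1.trans ?_
    have h2 : ∫⁻ y in closedBall x (h / 2),
          ‖(‖x - y‖ ^ (n - 1))⁻¹ * |Laplacian.laplacian u y|‖ₑ =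
        ∫⁻ y in closedBall x (h / 2),
          ENNReal.ofReal (‖x - y‖ ^ (-((n : ℝ) - 1)) * (‖y‖ ^ A * v y ^ p)) := by
      refine setLIntegral_congr_fun measurableSet_closedBall ?_
      intro y hy
      have hy' : y ∈ closedBall x h := closedBall_subset_closedBall (by linarith only [hh]) hy
      simp only
      rw [hlap y hy', abs_neg, abs_of_nonneg (hsrc y), Gr.kernel_eq hn _ (norm_nonneg _),
        Real.enorm_of_nonneg (mul_nonneg (Real.rpow_nonneg (norm_nonneg _) _) (hsrc y))]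
    rw [h2]
    exact lintegral_mono_set (closedBall_subset_ball (by linarith only [hh]))
  calc ENNReal.ofReal ‖fderiv ℝ u x‖
      ≤ ENNReal.ofReal (C / h * u x + C * ∫ y in closedBall x (h / 2),
        (‖x - y‖ ^ (n - 1))⁻¹ * |Laplacian.laplacian u y|) := ENNReal.ofReal_le_ofReal key
    _ ≤ ENNReal.ofReal (C / h * u x) + ENNReal.ofReal (C * ∫ y in closedBall x (h / 2),
        (‖x - y‖ ^ (n - 1))⁻¹ * |Laplacian.laplacian u y|) := ENNReal.ofReal_add_le
    _ ≤ _ := by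
        rw [ENNReal.ofReal_mul hC.le]
        (clear * - k1; gcongr)

end Vale.Agent.P100.RM


open MeasureTheory Set Metric
open scoped ENNReal Pointwise

namespace Vale.Agent.P100.RM

variable {n : ℕ}

theorem line_bound_of_gradL (hn : 3 ≤ n)
    (hgrad : ∃ C : ℝ, 0 < C ∧ ∀ (p q A B : ℝ), -2 < A → -2 < B → 0 < p →
    0 < q → ∀ (L : ℝ) (u v : E n → ℝ), LSol n p q A B L u v → ∀ x : E n, x ≠ 0 →
    ∀ h : ℝ, 0 < h → h < ‖x‖ → ‖x‖ + h < Real.exp L → ENNReal.ofReal ‖fderiv ℝ u x‖ ≤ ENNReal.ofReal (C / h * u x) +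
      ENNReal.ofReal C * ∫⁻ y in Metric.ball x h,
        ENNReal.ofReal (‖x - y‖ ^ (-((n : ℝ) - 1)) * (‖y‖ ^ A * v y ^ p)))
    {p q A B : ℝ} (hp : 0 < p) (hq : 0 < q) (hA : -2 < A)
    (hB : -2 < B) (α β : ℝ) : ∃ C κ T0 : ℝ, 0 < C ∧ 0 < κ ∧ 0 < T0 ∧
    ∀ (L : ℝ) (u v : E n → ℝ), 1 ≤ L → LSol n p q A B L u v → ∀ T l : ℝ, 0 < l → l ≤ T → T ≤ T0 →
    ∃ G : Sph n → ℝ, (∀ θ, 0 ≤ G θ) ∧ Integrable (fun θ => G θ * v (θ : E n)) (sg n) ∧
      (∀ᵐ θ ∂(sg n), ∀ s, |s| ≤ T → cy0 (((n : ℝ) - 2) / 2) u s θ ≤ cy0 (((n : ℝ) - 2) / 2) u 0 θ →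
        |cy1 (((n : ℝ) - 2) / 2) u s θ| ≤ G θ) ∧
      ∫ θ, G θ * v (θ : E n) ∂(sg n) ≤ C / l * ∫ θ : Sph n, u (θ : E n) * v (θ : E n) ∂(sg n) +
        C * l ^ κ * (En n p q u v +
          ∫ s in (-(2 * T))..(2 * T), En n p q (scl α s u) (scl β s v)) := by
  obtain ⟨C0, hC0, hgr⟩ := hgrad
  have hn' : (3 : ℝ) ≤ n := by exact_mod_cast hn
  set c : ℝ := ((n : ℝ) - 2) / 2 with hc
  have hc0 : 0 < c := by rw [hc]; linarith only [hn']
  set ε : ℝ := 1 / (2 * (p + 1)) with hε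
  have hε0 : 0 < ε := by rw [hε]; positivity
  have hε1 : ε < 1 := by
    rw [hε, div_lt_one (by positivity)]; linarith only [hp]
  set Cg : ℝ := Real.exp |A - β * p| with hCg
  have hCg0 : 0 < Cg := Real.exp_pos _
  set C1 : ℝ := Real.exp n * 2 ^ (n - 1) * Cg with hC1
  have hC10 : 0 < C1 := by positivity
  set K : ℝ := 2⁻¹ * Real.exp n * 3 ^ n * (2 ^ ε / ε) * (sg n).real univ with hK
  have hK0 : 0 ≤ K := by (clear * - hp; positivity)
  set C2 : ℝ := 2 * Real.exp c * (C0 * C1) with hC2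
  have hC20 : 0 < C2 := by positivity
  refine ⟨(c + 4 * C0) + C2 * K * 4, ε, 1 / 8, by (clear * - hc0 hC0 hp; positivity), hε0, by norm_num, ?_⟩
  intro L u v hL1 hs T l hl hlT hT
  have pu := hs.pos_u
  have pv := hs.pos_v
  have hu := hs.continuous_u
  have hv := hs.continuous_v
  have hT0 : 0 < T := lt_of_lt_of_le hl hlT
  set g : E n → ℝ := fun y => ‖y‖ ^ A * v y ^ p with hg
  have hg0 : ∀ y, 0 ≤ g y := fun y => by
    have := (pv y).le
    rw [hg]; (clear * - this; positivity)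
  have hgm : Measurable g := by
    have := hv.measurable
    rw [hg]; fun_prop
  set Y : ℝ → Sph n → ℝ := fun r ω => scl β r v (ω : E n) with hY
  have hYc : Continuous (fun x : ℝ × Sph n => Y x.1 x.2) := by
    rw [hY]; unfold scl; fun_prop
  have hY0 : ∀ r ω, 0 ≤ Y r ω := fun r ω => (scl_pos pv _).le
  have hgY : ∀ r, |r| ≤ 2 * T → ∀ ω : Sph n, g (Real.exp r • (ω : E n)) ≤ Cg * (Y r ω) ^ p := by
    intro r hr ω
    have hw : ‖Real.exp r • (ω : E n)‖ = Real.exp r := by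
      have : ‖(ω : E n)‖ = 1 := by simp
      rw [norm_smul, this, Real.norm_eq_abs, abs_of_pos (Real.exp_pos _), mul_one]
    have e1 : g (Real.exp r • (ω : E n)) = Real.exp ((A - β * p) * r) * (Y r ω) ^ p := by
      rw [hg, hY]
      simp only
      unfold scl
      rw [hw, Real.mul_rpow (Real.exp_pos _).le (pv _).le, ← Real.exp_mul, ← Real.exp_mul,
        ← mul_assoc, ← Real.exp_add]
      congr 2
      ring
    rw [e1]
    refine mul_le_mul_of_nonneg_right ?_ (Real.rpow_nonneg (hY0 r ω) _)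
    rw [hCg]
    refine Real.exp_le_exp.2 ?_
    calc (A - β * p) * r ≤ |(A - β * p) * r| := le_abs_self _
      _ = |A - β * p| * |r| := abs_mul _ _
      _ ≤ |A - β * p| * 1 := by
          refine mul_le_mul_of_nonneg_left ?_ (abs_nonneg _)
          linarith only [hT, hr]
      _ = _ := mul_one _
  set J : Sph n → ℝ≥0∞ := fun ω => ∫⁻ r in Icc (-(2 * T)) (2 * T),
    ENNReal.ofReal ((Y r ω) ^ (p + 1)) with hJ
  have hJm : Measurable J := by
    rw [hJ]
    refine Measurable.lintegral_prod_right' (f := fun q : Sph n × ℝ =>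
      ENNReal.ofReal ((Y q.2 q.1) ^ (p + 1))) ?_
    have : Measurable (fun q : Sph n × ℝ => Y q.2 q.1) := hYc.measurable.comp measurable_swap
    (clear * - hYc; fun_prop)
  set a : Sph n → ℝ≥0∞ := fun θ => ENNReal.ofReal (4 * (v (θ : E n)) ^ (p + 1)) with ha
  have ham : Measurable a := by
    have := (hv.comp (continuous_subtype_val (p := fun x => x ∈ sphere (0 : E n) 1))).measurable
    have h2 : Measurable (fun θ : Sph n => v (θ : E n)) := this
    rw [ha]; (clear * - hv; fun_prop)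
  have hkm : Measurable (fun x : Sph n × Sph n => ENNReal.ofReal (kap n ε l x.1 x.2)) :=
    (measurable_kap ε l).ennreal_ofReal
  set P : Sph n → ℝ≥0∞ := fun θ => ∫⁻ ω, ENNReal.ofReal (kap n ε l θ ω) * (a θ + J ω) ∂(sg n)
    with hP
  have hPm : Measurable P := by
    rw [hP]
    exact Measurable.lintegral_prod_right' (f := fun q : Sph n × Sph n =>
      ENNReal.ofReal (kap n ε l q.1 q.2) * (a q.1 + J q.2))
      (hkm.mul ((ham.comp measurable_fst).add (hJm.comp measurable_snd)))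
  -- integral of P
  have hM : ∀ x : Sph n, ∫⁻ y, ENNReal.ofReal (kap n ε l x y) ∂(sg n) ≤
      ENNReal.ofReal (K * l ^ ε) := by
    intro x
    refine (lintegral_kap_le (by omega) hε0 (by linarith only [hn', hε1]) x hl (by linarith only [hlT, hT])).trans ?_
    rw [← ENNReal.ofReal_toReal (measure_ne_top (sg n) univ), ← ENNReal.ofReal_mul (by positivity)]
    refine ENNReal.ofReal_le_ofReal (le_of_eq ?_)
    rw [hK]
    have : (sg n).real univ = (sg n univ).toReal := rfl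
    rw [this]
    ring
  set EE : ℝ := ∫ s in (-(2 * T))..(2 * T), En n p q (scl α s u) (scl β s v) with hEE
  have hEE0 : 0 ≤ EE := by
    rw [hEE]
    refine intervalIntegral.integral_nonneg (by linarith only [hl, hlT]) fun s _ =>
      En_nonneg (scl_pos pu) (scl_pos pv)
  have hEn0 : 0 ≤ En n p q u v := En_nonneg pu pv
  have hPint : ∫⁻ θ, P θ ∂(sg n) ≤ ENNReal.ofReal (K * l ^ ε * (4 * (En n p q u v + EE))) := by
    have e1 := schur (n := n) (k := fun x y => ENNReal.ofReal (kap n ε l x y)) hkm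
      (fun x y => by rw [kap_symm]) hM ham hJm
    refine e1.trans ?_
    have e2 : ∫⁻ θ, a θ ∂(sg n) ≤ ENNReal.ofReal (4 * En n p q u v) := by
      have e3 : ∀ θ, a θ = ENNReal.ofReal 4 * ENNReal.ofReal ((v (θ : E n)) ^ (p + 1)) := fun θ => by
        rw [ha]; simp only; rw [ENNReal.ofReal_mul (by norm_num)]
      rw [lintegral_congr e3, lintegral_const_mul' _ _ ENNReal.ofReal_ne_top,
        ENNReal.ofReal_mul (by norm_num)]
      exact mul_le_mul' le_rfl (lintegral_le_En hp hq hu hv pu pv)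
    have e4 : ∫⁻ θ, J θ ∂(sg n) ≤ ENNReal.ofReal EE :=
      lintegral_window_le hp hq α β hu hv pu pv hT0.le
    calc ENNReal.ofReal (K * l ^ ε) * ((∫⁻ x, a x ∂(sg n)) + ∫⁻ x, J x ∂(sg n))
        ≤ ENNReal.ofReal (K * l ^ ε) * (ENNReal.ofReal (4 * En n p q u v) + ENNReal.ofReal EE) :=
          mul_le_mul' le_rfl (add_le_add e2 e4)
      _ = ENNReal.ofReal (K * l ^ ε * (4 * En n p q u v + EE)) := by
          rw [← ENNReal.ofReal_add (by (clear * - hEn0; positivity)) hEE0, ← ENNReal.ofReal_mul (by (clear * - hp hl; positivity))]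
      _ ≤ _ := by
          refine ENNReal.ofReal_le_ofReal (mul_le_mul_of_nonneg_left (by linarith only [hEE0]) (by (clear * - hp hl; positivity)))
  have hPfin : ∀ᵐ θ ∂(sg n), P θ < ∞ :=
    ae_lt_top hPm (ne_of_lt (lt_of_le_of_lt hPint ENNReal.ofReal_lt_top))
  set Ψ : Sph n → ℝ := fun θ => (P θ).toReal with hΨ
  have hΨ0 : ∀ θ, 0 ≤ Ψ θ := fun θ => ENNReal.toReal_nonneg
  have hΨi : Integrable Ψ (sg n) :=
    integrable_toReal_of_lintegral_ne_top hPm.aemeasurable
      (ne_of_lt (lt_of_le_of_lt hPint ENNReal.ofReal_lt_top))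
  have hΨint : ∫ θ, Ψ θ ∂(sg n) ≤ K * l ^ ε * (4 * (En n p q u v + EE)) := by
    rw [hΨ, integral_toReal hPm.aemeasurable hPfin]
    exact ENNReal.toReal_le_of_le_ofReal (by (clear * - hp hl hEn0 hEE0; positivity)) hPint
  have hGv : ∀ θ : Sph n, ((c + 4 * C0) / l * u (θ : E n) + C2 * (Ψ θ / v (θ : E n))) * v (θ : E n)
      = (c + 4 * C0) / l * (u (θ : E n) * v (θ : E n)) + C2 * Ψ θ := by
    intro θ
    have h2 := (pv (θ : E n)).ne'
    (clear * - h2 hl; field_simp)
  have huv : Integrable (fun θ : Sph n => u (θ : E n) * v (θ : E n)) (sg n) :=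
    integrable_sph ((hu.comp continuous_subtype_val).mul (hv.comp continuous_subtype_val))
  have huv0 : 0 ≤ ∫ θ : Sph n, u (θ : E n) * v (θ : E n) ∂(sg n) :=
    integral_nonneg fun θ => mul_nonneg (pu _).le (pv _).le
  refine ⟨fun θ => (c + 4 * C0) / l * u (θ : E n) + C2 * (Ψ θ / v (θ : E n)), ?_, ?_, ?_, ?_⟩
  · intro θ
    have h1 := pu (θ : E n)
    have h2 := pv (θ : E n)
    have h3 := hΨ0 θ
    (clear * - hc0 hC0 hl h1 h2; positivity)
  · simp only [hGv]
    exact (huv.const_mul _).add (hΨi.const_mul _)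
  · filter_upwards [hPfin] with θ hθ s hsT hrec
    have hpot := pot_bound (n := n) (by omega) (a := v (θ : E n)) hp hε hgm hg0 hY0 hYc.measurable
      hCg0.le hT (h := l / 2) (by positivity) (by linarith only [hlT]) hsT hgY (pv _).le θ
    rw [show 2 * (l / 2) = l by ring] at hpot
    change _ ≤ ENNReal.ofReal C1 * P θ at hpot
    have hw : ‖(θ : E n)‖ = 1 := by simp
    have hxn : ‖Real.exp s • (θ : E n)‖ = Real.exp s := by
      rw [norm_smul, hw, Real.norm_eq_abs, abs_of_pos (Real.exp_pos _), mul_one]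
    have hx0 : Real.exp s • (θ : E n) ≠ 0 := by
      rw [← norm_pos_iff, hxn]; exact Real.exp_pos _
    have hlx : l / 2 < ‖Real.exp s • (θ : E n)‖ := by
      rw [hxn]
      have h1 := Real.add_one_le_exp s
      have h2 := (abs_le.1 hsT).1
      linarith only [hlT, hT, h1, h2]
    have hlL : ‖Real.exp s • (θ : E n)‖ + l / 2 < Real.exp L := by
      rw [hxn]
      have h1 : Real.exp s ≤ Real.exp (1 / 2) := Real.exp_le_exp.2 (by
        have := (abs_le.1 hsT).2
        linarith only [this, hT])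
      have h2 : Real.exp (1 / 2) + 1 / 2 ≤ Real.exp (1 / 2) * Real.exp (1 / 2) := by
        have h4 := Real.add_one_le_exp (1 / 2 : ℝ)
        nlinarith only [h4]
      have h3 : Real.exp (1 / 2) * Real.exp (1 / 2) ≤ Real.exp L := by
        rw [← Real.exp_add]
        exact Real.exp_le_exp.2 (by linarith only [hL1])
      linarith only [h1, h2, h3, hlT, hT]
    have hg1 := hgr p q A B hA hB hp hq L u v hs (Real.exp s • (θ : E n)) hx0 (l / 2) (by positivity)
      hlx hlL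
    have hux := pu (Real.exp s • (θ : E n))
    have hreal := combine_ennreal (pv (θ : E n)).le hC0.le hC10.le (by (clear * - hC0 hl hux; positivity)) hθ hg1 hpot
    have hs1 : |s| ≤ 1 := by linarith only [hT, hsT]
    have hecs : Real.exp (c * s) ≤ Real.exp c := by
      refine Real.exp_le_exp.2 ?_
      have := (abs_le.1 hs1).2
      nlinarith only [this, hn', hc]
    have hcy0 : Real.exp (c * s) * u (Real.exp s • (θ : E n)) ≤ u (θ : E n) := by
      have h1 := hrec
      unfold cy0 at h1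
      simpa only [ge_iff_le, mul_zero, Real.exp_zero, one_smul, one_mul] using h1
    exact point_real hc0 hC0 hC10 hl (by linarith only [hlT, hT]) hux (pu _) (pv _) (hΨ0 θ) (Real.exp_pos _) hecs
      hreal (abs_cy1_le hc0 pu θ (by linarith only [hT, hsT])) hcy0
  · simp only [hGv]
    rw [integral_add (huv.const_mul _) (hΨi.const_mul _), integral_const_mul, integral_const_mul]
    exact int_real hc0 hC0 hC20 hK0 hl (by positivity) huv0 (by (clear * - hEn0 hEE0; positivity)) hΨint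

theorem line_boundL (hn : 3 ≤ n) {p q A B : ℝ} (hp : 0 < p) (hq : 0 < q) (hA : -2 < A)
    (hB : -2 < B) (α β : ℝ) : ∃ C κ T0 : ℝ, 0 < C ∧ 0 < κ ∧ 0 < T0 ∧
    ∀ (L : ℝ) (u v : E n → ℝ), 1 ≤ L → LSol n p q A B L u v → ∀ T l : ℝ, 0 < l → l ≤ T → T ≤ T0 →
    ∃ G : Sph n → ℝ, (∀ θ, 0 ≤ G θ) ∧ Integrable (fun θ => G θ * v (θ : E n)) (sg n) ∧
      (∀ᵐ θ ∂(sg n), ∀ s, |s| ≤ T → cy0 (((n : ℝ) - 2) / 2) u s θ ≤ cy0 (((n : ℝ) - 2) / 2) u 0 θ →
        |cy1 (((n : ℝ) - 2) / 2) u s θ| ≤ G θ) ∧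
      ∫ θ, G θ * v (θ : E n) ∂(sg n) ≤ C / l * ∫ θ : Sph n, u (θ : E n) * v (θ : E n) ∂(sg n) +
        C * l ^ κ * (En n p q u v +
          ∫ s in (-(2 * T))..(2 * T), En n p q (scl α s u) (scl β s v)) :=
  line_bound_of_gradL hn (grad_boundL hn) hp hq hA hB α β

end Vale.Agent.P100.RM
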