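import Mathlib
import Vale.Agent.P100.H373.L1

set_option linter.all false

/-! # P100, local version of the running-minimum proof, part 2 (helper373) -/

open MeasureTheory Set Filter Topology Real

namespace Vale.Agent.P100.RM

variable {n : ℕ}

lemma cy_eqL {p q A B L : ℝ} {u v : E n → ℝ} (hs : LSol n p q A B L u v)
    (g h s : ℝ) (hsL : s < L) (θ : Sph n) :
    cy2 g u s θ + ((n : ℝ) - 2 - 2 * g) * cy1 g u s θ + cyS g u s θ
      - g * ((n : ℝ) - 2 - g) * cy0 g u s θ + exp ((g + 2 + A - p * h) * s) * (cy0 h v s θ) ^ p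
      = 0 := by
  rw [cy_lap hs.contDiffOn_u]
  have h1 := hs.eq_u (exp s • (θ : E n)) (expsmul_ne_zero s θ)
    (by rw [norm_expsmul]; exact exp_lt_exp.2 hsL)
  have h2 : Laplacian.laplacian u (exp s • (θ : E n)) =
      -(‖exp s • (θ : E n)‖ ^ A * v (exp s • (θ : E n)) ^ p) := by linarith only [h1]
  rw [h2, norm_expsmul]
  unfold cy0
  rw [mul_rpow (exp_pos _).le (hs.pos_v _).le, ← exp_mul, ← exp_mul, mul_neg, ← mul_assoc,
    ← mul_assoc, ← exp_add, ← exp_add]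
  ring_nf

theorem cy_subL {p q A B T L : ℝ} {u v : E n → ℝ} (hs : LSol n p q A B L u v)
    (s : ℝ) (hsT : |s| ≤ T) (hsL : s < L) (θ : Sph n) :
    cy2 (((n : ℝ) - 2) / 2) u s θ + cyS (((n : ℝ) - 2) / 2) u s θ
      - ((((n : ℝ) - 2) / 2) ^ 2) * cy0 (((n : ℝ) - 2) / 2) u s θ
      + exp (-(|((n : ℝ) - 2) / 2 + 2 + A - p * (((n : ℝ) - 2) / 2)| * T)) *
        (cy0 (((n : ℝ) - 2) / 2) v s θ) ^ p ≤ 0 := by
  have h := cy_eqL hs (((n : ℝ) - 2) / 2) (((n : ℝ) - 2) / 2) s hsL θ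
  set k : ℝ := ((n : ℝ) - 2) / 2 + 2 + A - p * (((n : ℝ) - 2) / 2) with hk
  have h1 : exp (-(|k| * T)) ≤ exp (k * s) := by
    apply exp_le_exp.2
    have h2 : |k * s| ≤ |k| * T := by
      rw [abs_mul]; exact mul_le_mul_of_nonneg_left hsT (abs_nonneg _)
    have := (abs_le.1 h2).1
    linarith only [this]
  have h3 : 0 ≤ (cy0 (((n : ℝ) - 2) / 2) v s θ) ^ p :=
    (rpow_pos_of_pos (cy0_pos hs.pos_v _ _ _) _).le
  have h4 := mul_le_mul_of_nonneg_right h1 h3
  have h5 : (n : ℝ) - 2 - 2 * (((n : ℝ) - 2) / 2) = 0 := by ring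
  have h6 : ((n : ℝ) - 2) / 2 * ((n : ℝ) - 2 - ((n : ℝ) - 2) / 2) = (((n : ℝ) - 2) / 2) ^ 2 := by
    ring
  rw [h5, h6, zero_mul, add_zero] at h
  linarith only [h, h4]

theorem lim_ineqL (hn : 3 ≤ n) {p q A B : ℝ} (hp : 0 < p) (hq : 0 < q) (hpq : 1 ≤ p * q) :
    ∃ C T0 : ℝ, 0 < C ∧ 0 < T0 ∧
    ∀ (L : ℝ) (u v : E n → ℝ), 1 < L → LSol n p q A B L u v → ∀ T : ℝ, 0 < T → T ≤ T0 →
    ∀ G : Sph n → ℝ, (∀ θ, 0 ≤ G θ) → Integrable (fun θ => G θ * v (θ : E n)) (sg n) →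
      (∀ᵐ θ ∂(sg n), ∀ s, |s| ≤ T → cy0 (((n : ℝ) - 2) / 2) u s θ ≤ cy0 (((n : ℝ) - 2) / 2) u 0 θ →
        |cy1 (((n : ℝ) - 2) / 2) u s θ| ≤ G θ) →
      Ham n p q 0 u v ≤ C / T * ∫ θ, G θ * v (θ : E n) ∂(sg n) +
        C / T ^ 2 * ∫ θ : Sph n, u (θ : E n) * v (θ : E n) ∂(sg n) + C * T * En n p q u v := by
  set c : ℝ := ((n : ℝ) - 2) / 2 with hc
  set k1 : ℝ := c + 2 + A - p * c with hk1
  set k2 : ℝ := c + 2 + B - q * c with hk2
  have hp1 : 0 < p + 1 := by linarith only [hp]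
  have hq1 : 0 < q + 1 := by linarith only [hq]
  refine ⟨4 + |k1| + |k2|, 1, by (clear * -; positivity), one_pos, ?_⟩
  intro L u v hL hs T hT hT1 G hG0 hGv hG
  have hsig : 1 / (p + 1) + 1 / (q + 1) ≤ 1 := by
    rw [div_add_div _ _ hp1.ne' hq1.ne', div_le_one (by positivity)]
    nlinarith only [hpq]
  have hu := hs.contDiffOn_u
  have hv := hs.contDiffOn_v
  -- `G` is integrable
  have cu : Continuous fun θ : Sph n => u (θ : E n) := hs.continuous_u.comp continuous_subtype_val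
  have cv : Continuous fun θ : Sph n => v (θ : E n) := hs.continuous_v.comp continuous_subtype_val
  have hGi : Integrable G (sg n) := by
    have cinv : Continuous fun θ : Sph n => (v (θ : E n))⁻¹ := cv.inv₀ fun θ => (hs.pos_v _).ne'
    obtain ⟨M, hM⟩ := (isCompact_univ (X := Sph n)).bddAbove_image cinv.abs.continuousOn
    have h1 := hGv.bdd_mul (c := M) cinv.aestronglyMeasurable
      (Eventually.of_forall fun θ => by
        rw [Real.norm_eq_abs]; exact hM ⟨θ, mem_univ _, rfl⟩)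
    refine h1.congr (Eventually.of_forall fun θ => ?_)
    have := (hs.pos_v (θ : E n)).ne'
    field_simp
  have key := lim_abs (σ := sg n) (lam := c ^ 2) (a := exp (-(|k1| * T))) (b := exp (-(|k2| * T)))
    (p := p) (q := q) (T := T) hT (by (clear * -; positivity)) (exp_pos _).le (exp_pos _).le hp hq hsig
    (R := rotS n) (fun ε k => continuous_rotS ε k) (fun c ε F G hF hG => Lsym c ε hF hG)
    (X := cy0 c u) (X1 := cy1 c u) (X2 := cy2 c u) (SX := cyS c u)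
    (Y := cy0 c v) (Y1 := cy1 c v) (Y2 := cy2 c v) (SY := cyS c v)
    (continuous_cy0 hu c) (continuous_cy1 hu c) (continuous_cy2 hu c) (continuous_cyS hu c)
    (continuous_cy0 hv c) (continuous_cy1 hv c) (continuous_cy2 hv c) (continuous_cyS hv c)
    (fun s θ => hasDerivAt_cy0 hu c s θ) (fun s θ => hasDerivAt_cy1 hu c s θ)
    (fun s θ => hasDerivAt_cy0 hv c s θ) (fun s θ => hasDerivAt_cy1 hv c s θ)
    (fun s θ => cy0_pos hs.pos_u c s θ) (fun s θ => cy0_pos hs.pos_v c s θ)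
    (Lop_unif hu c T) (Lop_unif hv c T)
    (fun s θ hsT => cy_subL hs s hsT (by have := (abs_le.1 hsT).2; linarith only [this, hT1, hL]) θ)
    (fun s θ hsT => cy_subL hs.symm s hsT (by have := (abs_le.1 hsT).2; linarith only [this, hT1, hL]) θ)
    hG0 hGi hG
  simp only [cy0_zero] at key
  -- the Hamiltonian
  have i1 : Integrable (fun θ : Sph n => cy1 c u 0 θ * cy1 c v 0 θ) (sg n) :=
    int_cont _ (((continuous_cy1 hu c).comp (Continuous.prodMk_right _)).mul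
      ((continuous_cy1 hv c).comp (Continuous.prodMk_right _)))
  have i2 : Integrable (fun θ : Sph n => cyS c u 0 θ * v (θ : E n)) (sg n) :=
    int_cont _ (((continuous_cyS hu c).comp (Continuous.prodMk_right _)).mul cv)
  have i3 : Integrable (fun θ : Sph n => u (θ : E n) * v (θ : E n)) (sg n) :=
    int_cont _ (cu.mul cv)
  have i4 : Integrable (fun θ : Sph n => v (θ : E n) ^ (p + 1)) (sg n) :=
    int_cont _ (cv.rpow_const fun _ => Or.inr hp1.le)
  have i5 : Integrable (fun θ : Sph n => u (θ : E n) ^ (q + 1)) (sg n) :=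
    int_cont _ (cu.rpow_const fun _ => Or.inr hq1.le)
  have hHam : Ham n p q 0 u v = ∫ θ, cy1 c u 0 θ * cy1 c v 0 θ ∂(sg n)
      + ∫ θ : Sph n, cyS c u 0 θ * v (θ : E n) ∂(sg n)
      - c ^ 2 * ∫ θ : Sph n, u (θ : E n) * v (θ : E n) ∂(sg n)
      + 1 / (p + 1) * ∫ θ : Sph n, v (θ : E n) ^ (p + 1) ∂(sg n)
      + 1 / (q + 1) * ∫ θ : Sph n, u (θ : E n) ^ (q + 1) ∂(sg n) := by
    rw [← int5 (c ^ 2) (1 / (p + 1)) (1 / (q + 1)) i1 i2 i3 i4 i5]
    unfold Ham
    refine integral_congr_ae (Eventually.of_forall fun θ => ?_)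
    simp only [add_zero, sub_zero, cy0_zero, ← hc]
    ring
  have hEn : En n p q u v = ∫ θ : Sph n, v (θ : E n) ^ (p + 1) ∂(sg n)
      + ∫ θ : Sph n, u (θ : E n) ^ (q + 1) ∂(sg n) := by
    rw [En, integral_add i4 i5]
  have j4 : 0 ≤ ∫ θ : Sph n, v (θ : E n) ^ (p + 1) ∂(sg n) :=
    integral_nonneg fun θ => (rpow_pos_of_pos (hs.pos_v _) _).le
  have j5 : 0 ≤ ∫ θ : Sph n, u (θ : E n) ^ (q + 1) ∂(sg n) :=
    integral_nonneg fun θ => (rpow_pos_of_pos (hs.pos_u _) _).le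
  have j3 : 0 ≤ ∫ θ : Sph n, u (θ : E n) * v (θ : E n) ∂(sg n) :=
    integral_nonneg fun θ => mul_nonneg (hs.pos_u _).le (hs.pos_v _).le
  have j0 : 0 ≤ ∫ θ : Sph n, G θ * v (θ : E n) ∂(sg n) :=
    integral_nonneg fun θ => mul_nonneg (hG0 θ) (hs.pos_v _).le
  have hcomm : ∫ θ : Sph n, v (θ : E n) * u (θ : E n) ∂(sg n) =
      ∫ θ : Sph n, u (θ : E n) * v (θ : E n) ∂(sg n) := by
    simp_rw [mul_comm]
  rw [hcomm] at key
  rw [hHam, hEn]
  generalize ∫ θ, cy1 c u 0 θ * cy1 c v 0 θ ∂(sg n) = I1 at key ⊢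
  generalize ∫ θ : Sph n, cyS c u 0 θ * v (θ : E n) ∂(sg n) = I2 at key ⊢
  generalize ∫ θ : Sph n, u (θ : E n) * v (θ : E n) ∂(sg n) = I3 at key j3 ⊢
  generalize ∫ θ : Sph n, v (θ : E n) ^ (p + 1) ∂(sg n) = I4 at key j4 ⊢
  generalize ∫ θ : Sph n, u (θ : E n) ^ (q + 1) ∂(sg n) = I5 at key j5 ⊢
  generalize ∫ θ : Sph n, G θ * v (θ : E n) ∂(sg n) = I0 at key j0 ⊢
  have ex : ∀ k : ℝ, 1 - exp (-(|k| * T)) ≤ |k| * T := fun k => by
    have := add_one_le_exp (-(|k| * T)); linarith only [this]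
  have fr : ∀ {r k I : ℝ}, 0 < r → 0 ≤ I → 1 / (r + 1) * I ≤
      exp (-(|k| * T)) / (r + 1) * I + |k| * T * I := by
    intro r k I hr hI
    have h1 : (1 - exp (-(|k| * T))) / (r + 1) ≤ |k| * T := by
      rw [div_le_iff₀ (by linarith only [hr])]
      have h2 := ex k
      have h3 : 0 ≤ |k| * T := by (clear * - hT; positivity)
      nlinarith only [h2, hr, h3]
    have h4 := mul_le_mul_of_nonneg_right h1 hI
    have h5 : (1 - exp (-(|k| * T))) / (r + 1) * I =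
      1 / (r + 1) * I - exp (-(|k| * T)) / (r + 1) * I := by ring
    linarith only [h4, h5]
  have f4 := fr (k := k1) hp j4
  have f5 := fr (k := k2) hq j5
  have key2 : I1 + I2 - c ^ 2 * I3 + exp (-(|k1| * T)) / (p + 1) * I4
      + exp (-(|k2| * T)) / (q + 1) * I5 ≤ 4 / T * I0 + 2 / T ^ 2 * I3 := by
    have h2T : 0 < T / 2 := by positivity
    have h1 : T / 2 * (4 / T * I0 + 2 / T ^ 2 * I3) = 2 * I0 + 1 / T * I3 := by
      field_simp
      ring
    rw [← h1] at key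
    exact le_of_mul_le_mul_left key h2T
  have hk1' := abs_nonneg k1
  have hk2' := abs_nonneg k2
  have g0 : 4 / T * I0 ≤ (4 + |k1| + |k2|) / T * I0 := by gcongr; linarith only [hk1', hk2']
  have g3 : 2 / T ^ 2 * I3 ≤ (4 + |k1| + |k2|) / T ^ 2 * I3 := by gcongr; linarith only [hk1', hk2']
  have g4 : |k1| * T * I4 + |k2| * T * I5 ≤ (4 + |k1| + |k2|) * T * (I4 + I5) := by
    nlinarith only [hk1', hk2', mul_nonneg hT.le j4, mul_nonneg hT.le j5]
  linarith only [f4, f5, key2, g0, g3, g4]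

end Vale.Agent.P100.RM


open MeasureTheory Set Filter Topology Real

namespace Vale.Agent.P100.RM

noncomputable section

variable {n : ℕ}

lemma int_uv_leL {p q A B L : ℝ} (hp : 0 < p) (hq : 0 < q) (hpq : 1 < p * q) {u v : E n → ℝ}
    (hs : LSol n p q A B L u v) {η : ℝ} (hη : 0 < η) :
    ∫ θ : Sph n, u (θ : E n) * v (θ : E n) ∂(sg n) ≤ η * En n p q u v +
      η ^ (-((1 / (p + 1) + 1 / (q + 1)) / (1 - (1 / (p + 1) + 1 / (q + 1))))) *
        (sg n).real univ := by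
  set k := (1 / (p + 1) + 1 / (q + 1)) / (1 - (1 / (p + 1) + 1 / (q + 1)))
  have cu := continuous_restrictL (n := n) hs.continuous_u
  have cv := continuous_restrictL (n := n) hs.continuous_v
  have cE : Continuous (fun θ : Sph n => (v (θ : E n)) ^ (p + 1) + (u (θ : E n)) ^ (q + 1)) := by
    apply Continuous.add
    · exact cv.rpow_const (fun θ => Or.inr (by linarith only [hp]))
    · exact cu.rpow_const (fun θ => Or.inr (by linarith))
  have h1 : ∫ θ : Sph n, u (θ : E n) * v (θ : E n) ∂(sg n) ≤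
      ∫ θ : Sph n, (η * ((v (θ : E n)) ^ (p + 1) + (u (θ : E n)) ^ (q + 1)) + η ^ (-k)) ∂(sg n) := by
    apply integral_mono (integrable_sphL (cu.mul cv))
      (integrable_sphL ((continuous_const.mul cE).add continuous_const))
    intro θ
    exact young3w hp hq hpq (hs.pos_u _) (hs.pos_v _) hη
  refine h1.trans (le_of_eq ?_)
  have i1 : Integrable (fun θ : Sph n => η * ((v (θ : E n)) ^ (p + 1) + (u (θ : E n)) ^ (q + 1)))
      (sg n) := integrable_sphL (continuous_const.mul cE)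
  rw [integral_add i1 (integrable_const _), integral_const_mul, integral_const]
  unfold En
  rw [smul_eq_mul]
  ring

theorem locL (hn : 3 ≤ n) {p q A B : ℝ} (hp : 0 < p) (hq : 0 < q) (hpq : 1 < p * q) (hA : -2 < A)
    (hB : -2 < B) (α β d : ℝ) : ∃ C k T0 : ℝ, 0 < C ∧ 0 < k ∧ 0 < T0 ∧
    ∀ (L : ℝ) (u v : E n → ℝ), 1 < L → LSol n p q A B L u v → ∀ T : ℝ, 0 < T → T ≤ T0 →
      Ham n p q d u v ≤ C * T * (En n p q u v +
        ∫ s in (-(2 * T))..(2 * T), En n p q (scl α s u) (scl β s v)) + C * T ^ (-k) := by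
  obtain ⟨C1, T1, hC1, hT1, H1⟩ := lim_ineqL (n := n) hn hp hq hpq.le (A := A) (B := B)
  obtain ⟨C2, κ2, T2, hC2, hκ2, hT2, H2⟩ := line_boundL (n := n) hn hp hq hA hB α β
  obtain ⟨C3, κ3, T3, hC3, hκ3, hT3, H3⟩ := line_boundL (n := n) hn hq hp hB hA β α
  set κ := min κ2 κ3 with hκdef
  have hκ : 0 < κ := lt_min hκ2 hκ3
  set m : ℝ := max 1 (2 / κ) with hm
  have hm1 : 1 ≤ m := le_max_left _ _
  have hmκ : 2 ≤ m * κ := by
    have : 2 / κ ≤ m := le_max_right _ _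
    rwa [div_le_iff₀ hκ] at this
  set k1 : ℝ := (1 / (p + 1) + 1 / (q + 1)) / (1 - (1 / (p + 1) + 1 / (q + 1))) with hk1
  have hp1 : 0 < p + 1 := by linarith only [hp]
  have hq1 : 0 < q + 1 := by linarith only [hq]
  have hσ1 : (1 / (p + 1) + 1 / (q + 1)) < 1 := by
    rw [div_add_div _ _ hp1.ne' hq1.ne', div_lt_one (by positivity)]
    nlinarith only [hpq]
  have hk1pos : 0 < k1 := div_pos (by positivity) (by linarith only [hσ1])
  set C0 : ℝ := C1 + C1 * C2 + |d| * (C2 + C3) with hC0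
  have hC0pos : 0 < C0 := by (clear * - hC1 hC2 hC3; positivity)
  set V : ℝ := (sg n).real univ with hV
  have hV0 : 0 ≤ V := measureReal_nonneg
  refine ⟨4 * C0 * (1 + V), 1 + m + (m + 2) * k1, min (min T1 T2) (min T3 1), by (clear * - hC1 hC2 hC3; positivity),
    by positivity, by (clear * - hT1 hT2 hT3; positivity), ?_⟩
  intro L u v hL1 hs T hT hTle
  have hTT1 : T ≤ T1 := hTle.trans ((min_le_left _ _).trans (min_le_left _ _))
  have hTT2 : T ≤ T2 := hTle.trans ((min_le_left _ _).trans (min_le_right _ _))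
  have hTT3 : T ≤ T3 := hTle.trans ((min_le_right _ _).trans (min_le_left _ _))
  have hTT4 : T ≤ 1 := hTle.trans ((min_le_right _ _).trans (min_le_right _ _))
  have hs' : LSol n q p B A L v u := hs.symm
  set l : ℝ := T ^ m with hl
  have hl0 : 0 < l := rpow_pos_of_pos hT _
  have hlT : l ≤ T := by
    calc l = T ^ m := rfl
      _ ≤ T ^ (1 : ℝ) := rpow_le_rpow_of_exponent_ge hT hTT4 hm1
      _ = T := rpow_one T
  have hlk : ∀ κ' : ℝ, κ ≤ κ' → l ^ κ' ≤ T ^ 2 := by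
    intro κ' hκ'
    calc l ^ κ' = T ^ (m * κ') := by rw [hl, ← rpow_mul hT.le]
      _ ≤ T ^ (2 : ℝ) := by
          apply rpow_le_rpow_of_exponent_ge hT hTT4
          exact hmκ.trans (mul_le_mul_of_nonneg_left hκ' (by linarith only [hm1]))
      _ = T ^ 2 := by norm_num
  obtain ⟨G, hG0, hGi, hGr, hGb⟩ := H2 L u v hL1.le hs T l hl0 hlT hTT2
  obtain ⟨K, hK0, hKi, hKr, hKb⟩ := H3 L v u hL1.le hs' T l hl0 hlT hTT3
  have hL := H1 L u v hL1 hs T hT hTT1 G hG0 hGi hGr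
  set a : ℝ := ∫ θ : Sph n, u (θ : E n) * v (θ : E n) ∂(sg n) with ha
  set e : ℝ := En n p q u v with he
  set I : ℝ := ∫ s in (-(2 * T))..(2 * T), En n p q (scl α s u) (scl β s v) with hI
  set g : ℝ := ∫ θ, G θ * v (θ : E n) ∂(sg n) with hg
  set kk : ℝ := ∫ θ, K θ * u (θ : E n) ∂(sg n) with hkk
  have ha' : ∫ θ : Sph n, v (θ : E n) * u (θ : E n) ∂(sg n) = a := by
    rw [ha]; congr 1; ext θ; ring
  have hI' : ∫ s in (-(2 * T))..(2 * T), En n q p (scl β s v) (scl α s u) = I := by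
    rw [hI]; congr 1; ext s; exact En_swapL _ _ _ _
  have he' : En n q p v u = e := En_swapL _ _ _ _
  rw [ha', hI', he'] at hKb
  have ha0 : 0 ≤ a := integral_nonneg fun θ => (mul_pos (hs.pos_u _) (hs.pos_v _)).le
  have he0 : 0 ≤ e := integral_nonneg fun θ =>
    add_nonneg (rpow_nonneg (hs.pos_v _).le _) (rpow_nonneg (hs.pos_u _).le _)
  have hI0 : 0 ≤ I := by
    apply intervalIntegral.integral_nonneg (by linarith only [hT])
    intro s _
    apply integral_nonneg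
    intro θ
    apply add_nonneg
    · apply rpow_nonneg
      unfold scl
      exact (mul_pos (exp_pos _) (hs.pos_v _)).le
    · apply rpow_nonneg
      unfold scl
      exact (mul_pos (exp_pos _) (hs.pos_u _)).le
  -- the Wronskian
  have hW : |∫ θ, (u (θ : E n) * cy1 (((n : ℝ) - 2) / 2) v 0 θ -
        cy1 (((n : ℝ) - 2) / 2) u 0 θ * v (θ : E n)) ∂(sg n)| ≤ g + kk := by
    rw [hg, hkk, ← integral_add hGi hKi]
    refine (abs_integral_le_integral_abs).trans ?_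
    apply integral_mono_of_nonneg
    · filter_upwards with θ using abs_nonneg _
    · exact hGi.add hKi
    · filter_upwards [hGr, hKr] with θ h1 h2
      have h1' := h1 0 (by rw [abs_zero]; exact hT.le) le_rfl
      have h2' := h2 0 (by rw [abs_zero]; exact hT.le) le_rfl
      have hu := hs.pos_u (θ : E n)
      have hv := hs.pos_v (θ : E n)
      calc |u (θ : E n) * cy1 (((n : ℝ) - 2) / 2) v 0 θ -
            cy1 (((n : ℝ) - 2) / 2) u 0 θ * v (θ : E n)|
          ≤ |u (θ : E n) * cy1 (((n : ℝ) - 2) / 2) v 0 θ| +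
            |cy1 (((n : ℝ) - 2) / 2) u 0 θ * v (θ : E n)| := abs_sub _ _
        _ = u (θ : E n) * |cy1 (((n : ℝ) - 2) / 2) v 0 θ| +
            |cy1 (((n : ℝ) - 2) / 2) u 0 θ| * v (θ : E n) := by
            rw [abs_mul, abs_mul, abs_of_pos hu, abs_of_pos hv]
        _ ≤ G θ * v (θ : E n) + K θ * u (θ : E n) := by
            have := mul_le_mul_of_nonneg_left h2' hu.le
            have := mul_le_mul_of_nonneg_right h1' hv.le
            (clear hn hp hq hpq hA hB α β d C1 T1 hC1 hT1 H1 C2 κ2 T2 hC2 hκ2 hT2 H2 C3 κ3 T3 hC3 hκ3 hT3 H3 κ hκdef hκ m hm hm1 hmκ k1 hk1 hp1 hq1 hσ1 hk1pos C0 hC0 hC0pos V hV hV0 hTle hTT1 hTT2 hTT3 hTT4 hs' l hl hl0 hlT hlk hG0 hGi hGr hK0 hKi hKr a ha e he I hI g hL hGb hg kk hKb hkk ha' hI' he' ha0 he0 hI0; linarith)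
  have hdr := Ham_drift (d := d) hp hq hs.contDiffOn_u hs.contDiffOn_v hs.continuous_u
    hs.continuous_v
  have hg0 : 0 ≤ g := integral_nonneg fun θ => mul_nonneg (hG0 θ) (hs.pos_v _).le
  have hkk0 : 0 ≤ kk := integral_nonneg fun θ => mul_nonneg (hK0 θ) (hs.pos_u _).le
  have hH : Ham n p q d u v ≤ C1 / T * g + C1 / T ^ 2 * a + C1 * T * e + |d| * (g + kk) := by
    rw [hdr]
    have := mul_le_mul_of_nonneg_left hW (abs_nonneg d)
    have h3 := le_abs_self (d * ∫ θ, (u (θ : E n) * cy1 (((n : ℝ) - 2) / 2) v 0 θ -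
        cy1 (((n : ℝ) - 2) / 2) u 0 θ * v (θ : E n)) ∂(sg n))
    rw [abs_mul] at h3
    linarith only [hL, this, h3]
  have hT2' : 0 < T ^ 2 := by (clear * - hT; positivity)
  have hg1 : g ≤ C2 / l * a + C2 * T ^ 2 * (e + I) := by
    refine hGb.trans (add_le_add le_rfl ?_)
    exact mul_le_mul_of_nonneg_right (mul_le_mul_of_nonneg_left (hlk κ2 (min_le_left _ _)) hC2.le)
      (add_nonneg he0 hI0)
  have hk1' : kk ≤ C3 / l * a + C3 * T ^ 2 * (e + I) := by
    refine hKb.trans (add_le_add le_rfl ?_)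
    exact mul_le_mul_of_nonneg_right (mul_le_mul_of_nonneg_left (hlk κ3 (min_le_right _ _)) hC3.le)
      (add_nonneg he0 hI0)
  have hH2 := loc_alg hT hTT4 hl0 hlT ha0 he0 hI0 hC1 hC2 hC3 (abs_nonneg d) hH hg1 hk1'
  rw [← hC0] at hH2
  have hη0 : 0 < T ^ (m + 2) := rpow_pos_of_pos hT _
  have hY := int_uv_leL (n := n) hp hq hpq hs hη0
  rw [← hk1, ← ha, ← he, ← hV] at hY
  exact loc_alg2 hT hl rfl he0 hI0 hV0 hC0pos hH2 hY

end

end Vale.Agent.P100.RM
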