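import Mathlib
import Vale.Agent.P100.H373.L2

set_option linter.all false

/-! # P100, interior gradient bound and bounds near the origin (helper373) -/

open MeasureTheory Set Filter Topology Real Metric

namespace Vale.Agent.P100.RM

noncomputable section

variable {n : ℕ}

/-- Interior gradient bound in terms of sup norms. -/
theorem grad_sup (hn : 1 ≤ n) : ∃ C : ℝ, 0 < C ∧
    ∀ (w : E n → ℝ) (U : Set (E n)) (x : E n) (l : ℝ), 0 < l → IsOpen U → closedBall x l ⊆ U →
      ContDiffOn ℝ 2 w U → ∀ M0 M2 : ℝ,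
      (∀ y ∈ closedBall x l, |w y| ≤ M0 ∧ |Laplacian.laplacian w y| ≤ M2) →
      ‖fderiv ℝ w x‖ ≤ C * (M0 / l + M2 * l) := by
  obtain ⟨C, hC, hg⟩ := grad_est n hn
  set J : ℝ := ∫ z in closedBall (0 : E n) 1, (‖z‖ ^ (n - 1))⁻¹ with hJ
  have hJ0 : 0 ≤ J := integral_nonneg fun z => by positivity
  set V : ℝ := (volume : Measure (E n)).real (closedBall 0 1) with hV
  have hV0 : 0 ≤ V := measureReal_nonneg
  refine ⟨C * (V + J) + C, by positivity, ?_⟩
  intro w U x l hl hU hsub hw M0 M2 hb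
  have hx := hb x (mem_closedBall_self hl.le)
  have hM0 : 0 ≤ M0 := (abs_nonneg _).trans hx.1
  have hM2 : 0 ≤ M2 := (abs_nonneg _).trans hx.2
  have hln : 0 < l ^ n := by positivity
  have hmem : ∀ z ∈ closedBall (0 : E n) 1, x + l • z ∈ closedBall x l := by
    intro z hz
    rw [mem_closedBall, dist_zero_right] at hz
    rw [mem_closedBall, dist_self_add_left, norm_smul, Real.norm_of_nonneg hl.le]
    nlinarith only [hz, hl]
  have h1 : ∫ y in closedBall x l, |w y| ≤ l ^ n * (M0 * V) := by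
    have e1 := Gr.scale_int (fun y => |w y|) x hl
    have e2 : ∫ z in closedBall (0 : E n) 1, |w (x + l • z)| ≤ M0 * V := by
      have h3 := norm_setIntegral_le_of_norm_le_const (μ := (volume : Measure (E n)))
        (s := closedBall (0 : E n) 1) (f := fun z => |w (x + l • z)|) (C := M0)
        measure_closedBall_lt_top (fun z hz => by
          rw [Real.norm_eq_abs, abs_abs]
          exact (hb _ (hmem z hz)).1)
      exact (le_abs_self _).trans h3
    rw [e1, inv_mul_le_iff₀ hln] at e2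
    exact e2
  have h2 : ∫ y in closedBall x l, (‖x - y‖ ^ (n - 1))⁻¹ * |Laplacian.laplacian w y| ≤
      l * (M2 * J) := by
    have e1 := Gr.scale_int (fun y => (‖x - y‖ ^ (n - 1))⁻¹ * |Laplacian.laplacian w y|) x hl
    have e2 : ∫ z in closedBall (0 : E n) 1,
        (‖x - (x + l • z)‖ ^ (n - 1))⁻¹ * |Laplacian.laplacian w (x + l • z)| ≤
        ∫ z in closedBall (0 : E n) 1, ((l ^ (n - 1))⁻¹ * M2) * (‖z‖ ^ (n - 1))⁻¹ := by
      apply integral_mono_of_nonneg
      · filter_upwards with z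
        positivity
      · exact (Gr.kernel_integrableOn hn).const_mul _
      · filter_upwards [ae_restrict_mem measurableSet_closedBall] with z hz
        have h3 := (hb _ (hmem z hz)).2
        have h4 : ‖x - (x + l • z)‖ = l * ‖z‖ := by
          rw [sub_add_cancel_left, norm_neg, norm_smul, Real.norm_of_nonneg hl.le]
        rw [h4, mul_pow, mul_inv]
        calc (l ^ (n - 1))⁻¹ * (‖z‖ ^ (n - 1))⁻¹ * |Laplacian.laplacian w (x + l • z)|
            ≤ (l ^ (n - 1))⁻¹ * (‖z‖ ^ (n - 1))⁻¹ * M2 :=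
              mul_le_mul_of_nonneg_left h3 (by positivity)
          _ = _ := by ring
    rw [e1, integral_const_mul, ← hJ, inv_mul_le_iff₀ hln] at e2
    refine e2.trans (le_of_eq ?_)
    have : l ^ n = l ^ (n - 1) * l := by
      rw [← pow_succ]
      congr 1
      omega
    rw [this]
    field_simp
  refine ContinuousLinearMap.opNorm_le_bound _ (by positivity) ?_
  intro e
  rw [Real.norm_eq_abs]
  refine (hg w U x l hl hU hsub hw e).trans ?_
  rw [mul_comm]
  apply mul_le_mul_of_nonneg_right _ (norm_nonneg e)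
  have k1 : C * (l ^ (n + 1))⁻¹ * (∫ y in closedBall x l, |w y|) ≤ C * V * (M0 / l) := by
    calc C * (l ^ (n + 1))⁻¹ * (∫ y in closedBall x l, |w y|)
        ≤ C * (l ^ (n + 1))⁻¹ * (l ^ n * (M0 * V)) :=
          mul_le_mul_of_nonneg_left h1 (by positivity)
      _ = C * V * (M0 / l) := by rw [pow_succ]; field_simp
  have k2 : C * ∫ y in closedBall x l, (‖x - y‖ ^ (n - 1))⁻¹ * |Laplacian.laplacian w y| ≤
      C * J * (M2 * l) := by
    calc C * ∫ y in closedBall x l, (‖x - y‖ ^ (n - 1))⁻¹ * |Laplacian.laplacian w y|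
        ≤ C * (l * (M2 * J)) := mul_le_mul_of_nonneg_left h2 hC.le
      _ = _ := by ring
  have a1 : 0 ≤ M0 / l := by positivity
  have a2 : 0 ≤ M2 * l := by positivity
  have a3 : 0 ≤ C * V * (M2 * l) := by positivity
  have a4 : 0 ≤ C * J * (M0 / l) := by positivity
  have a5 : 0 ≤ C * (M0 / l) := by positivity
  have a6 : 0 ≤ C * (M2 * l) := by positivity
  nlinarith only [k1, k2, a3, a4, a5, a6]

/-- Gradient bound near the origin. -/
lemma grad_nearL (hn : 3 ≤ n) {p q A B L : ℝ} (hL : 1 < L) (hA : -2 < A) (hp : 0 < p)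
    {u v : E n → ℝ} (hs : LSol n p q A B L u v) :
    ∃ C : ℝ, 0 ≤ C ∧ ∀ x : E n, x ≠ 0 → ‖x‖ ≤ 1 → ‖fderiv ℝ u x‖ * ‖x‖ ≤ C := by
  obtain ⟨C, hC, hg⟩ := grad_sup (n := n) (by omega)
  obtain ⟨Mu, hMu⟩ := (isCompact_closedBall (0 : E n) 2).exists_bound_of_continuousOn
    hs.continuous_u.continuousOn
  obtain ⟨Mv, hMv⟩ := (isCompact_closedBall (0 : E n) 2).exists_bound_of_continuousOn
    hs.continuous_v.continuousOn
  have h0 : (0 : E n) ∈ closedBall (0 : E n) 2 := mem_closedBall_self (by norm_num)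
  have hMu0 : 0 ≤ Mu := (norm_nonneg _).trans (hMu 0 h0)
  have hMv0 : 0 ≤ Mv := (norm_nonneg _).trans (hMv 0 h0)
  set K : ℝ := (2 ^ |A| * 4) * Mv ^ p with hK
  have hK0 : 0 ≤ K := by positivity
  refine ⟨C * (2 * Mu + K), by positivity, fun x hx hx1 => ?_⟩
  have hx0 : 0 < ‖x‖ := norm_pos_iff.2 hx
  have hl : 0 < ‖x‖ / 2 := by positivity
  have hball : ∀ y ∈ closedBall x (‖x‖ / 2), ‖x‖ / 2 ≤ ‖y‖ ∧ ‖y‖ ≤ 2 * ‖x‖ := by
    intro y hy
    rw [mem_closedBall, dist_eq_norm] at hy
    have e1 := norm_sub_norm_le x y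
    have e2 := norm_sub_norm_le y x
    rw [norm_sub_rev] at e1
    constructor <;> linarith only [e1, e2, hy, hx0]
  have key := hg u {0}ᶜ x (‖x‖ / 2) hl isOpen_compl_singleton (fun y hy => by
      rintro rfl
      have := (hball _ hy).1
      rw [norm_zero] at this
      linarith only [this, hl]) hs.contDiffOn_u Mu (K * (‖x‖ ^ 2)⁻¹) (fun y hy => by
      obtain ⟨h1, h2⟩ := hball y hy
      have hy0 : 0 < ‖y‖ := by linarith only [h1, hl]
      have hy2 : y ∈ closedBall (0 : E n) 2 := by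
        rw [mem_closedBall, dist_zero_right]; linarith only [h2, hx1]
      refine ⟨hMu y hy2, ?_⟩
      have hyL : ‖y‖ < exp L := by
        have h3 : (2 : ℝ) < exp L := by
          have h4 := Real.add_one_lt_exp (x := L) (by linarith only [hL])
          linarith only [h4, hL]
        linarith only [h2, hx1, h3]
      have h5 := hs.eq_u y (norm_pos_iff.1 hy0) hyL
      have h6 : |Laplacian.laplacian u y| = ‖y‖ ^ A * v y ^ p := by
        rw [← abs_neg, h5, abs_of_nonneg]
        exact mul_nonneg (Real.rpow_nonneg (norm_nonneg _) _) (Real.rpow_nonneg (hs.pos_v y).le _)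
      rw [h6]
      have h7 : v y ^ p ≤ Mv ^ p := by
        apply Real.rpow_le_rpow (hs.pos_v y).le _ hp.le
        exact (le_abs_self _).trans (hMv y hy2)
      have h8 : ‖y‖ ^ A ≤ (2 ^ |A| * 4) * (‖x‖ ^ 2)⁻¹ := by
        have hinv : (1 : ℝ) ≤ (‖x‖ ^ 2)⁻¹ := by
          rw [one_le_inv₀ (by positivity)]
          nlinarith only [hx1, hx0]
        rcases le_or_gt 0 A with hA0 | hA0
        · calc ‖y‖ ^ A ≤ 2 ^ A := Real.rpow_le_rpow hy0.le (by linarith only [h2, hx1]) hA0
            _ = 2 ^ |A| := by rw [abs_of_nonneg hA0]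
            _ ≤ (2 ^ |A| * 4) * (‖x‖ ^ 2)⁻¹ := by
                have h9 : (0 : ℝ) < 2 ^ |A| := by positivity
                nlinarith only [h9, hinv]
        · calc ‖y‖ ^ A ≤ (‖x‖ / 2) ^ A := Real.rpow_le_rpow_of_nonpos hl h1 hA0.le
            _ = 2 ^ |A| * ‖x‖ ^ A := by
                rw [Real.div_rpow hx0.le (by norm_num), abs_of_neg hA0,
                  Real.rpow_neg (by norm_num), div_eq_inv_mul]
            _ ≤ 2 ^ |A| * ‖x‖ ^ (-2 : ℝ) := by
                apply mul_le_mul_of_nonneg_left _ (by positivity)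
                exact Real.rpow_le_rpow_of_exponent_ge hx0 hx1 hA.le
            _ = 2 ^ |A| * (‖x‖ ^ 2)⁻¹ := by
                rw [Real.rpow_neg hx0.le]
                norm_num
            _ ≤ _ := by
                have h9 : (0 : ℝ) < 2 ^ |A| := by positivity
                have : 0 ≤ 2 ^ |A| * (‖x‖ ^ 2)⁻¹ := by positivity
                linarith only [this]
      calc ‖y‖ ^ A * v y ^ p ≤ ((2 ^ |A| * 4) * (‖x‖ ^ 2)⁻¹) * Mv ^ p :=
            mul_le_mul h8 h7 (Real.rpow_nonneg (hs.pos_v y).le _) (by positivity)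
        _ = K * (‖x‖ ^ 2)⁻¹ := by rw [hK]; ring)
  calc ‖fderiv ℝ u x‖ * ‖x‖
      ≤ C * (Mu / (‖x‖ / 2) + K * (‖x‖ ^ 2)⁻¹ * (‖x‖ / 2)) * ‖x‖ :=
        mul_le_mul_of_nonneg_right key hx0.le
    _ = C * (2 * Mu + K / 2) := by field_simp
    _ ≤ C * (2 * Mu + K) := by
        apply mul_le_mul_of_nonneg_left _ hC.le
        linarith only [hK0]

/-- Bounds near the origin. -/
lemma near_boundL (hn : 3 ≤ n) {p q A B L : ℝ} (hL : 1 < L) (hA : -2 < A) (hp : 0 < p)
    {u v : E n → ℝ} (hs : LSol n p q A B L u v) :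
    ∃ C : ℝ, 0 ≤ C ∧ ∀ x : E n, x ≠ 0 → ‖x‖ ≤ 1 → |u x| ≤ C ∧ |fderiv ℝ u x x| ≤ C := by
  obtain ⟨C, hC, hb⟩ := grad_nearL hn hL hA hp hs
  obtain ⟨M, hM⟩ := (isCompact_closedBall (0 : E n) 1).exists_bound_of_continuousOn
    hs.continuous_u.continuousOn
  refine ⟨max C M, hC.trans (le_max_left _ _), fun x hx hx1 => ⟨?_, ?_⟩⟩
  · exact (hM x (by simpa only [Metric.mem_closedBall, dist_zero_right] using hx1)).trans (le_max_right _ _)
  · have h1 := (fderiv ℝ u x).le_opNorm x
    exact (h1.trans (hb x hx hx1)).trans (le_max_left _ _)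

end

end Vale.Agent.P100.RM
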