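import Mathlib
import Vale.Agent.P100.H373.L3

set_option linter.all false

/-! # P100, the Pohozaev growth identity, local version (helper373) -/

open MeasureTheory Set Real Filter Topology Function

namespace Vale.Agent.P100.RM

variable {S : Type*} [MetricSpace S] [CompactSpace S] [MeasurableSpace S] [BorelSpace S]
  {sg : Measure S} [IsFiniteMeasure sg]

/-- Data of a solution on the cylinder, with the exponential change of unknowns. -/
structure DatL (S : Type*) [MetricSpace S] (p q d lam w1 w2 L : ℝ) where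
  X : ℝ → S → ℝ
  X1 : ℝ → S → ℝ
  X2 : ℝ → S → ℝ
  SX : ℝ → S → ℝ
  Y : ℝ → S → ℝ
  Y1 : ℝ → S → ℝ
  Y2 : ℝ → S → ℝ
  SY : ℝ → S → ℝ
  hX : ∀ t θ, HasDerivAt (fun s => X s θ) (X1 t θ) t
  hX1 : ∀ t θ, HasDerivAt (fun s => X1 s θ) (X2 t θ) t
  hY : ∀ t θ, HasDerivAt (fun s => Y s θ) (Y1 t θ) t
  hY1 : ∀ t θ, HasDerivAt (fun s => Y1 s θ) (Y2 t θ) t
  cX : Continuous (uncurry X)
  cX1 : Continuous (uncurry X1)
  cX2 : Continuous (uncurry X2)
  cSX : Continuous (uncurry SX)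
  cY : Continuous (uncurry Y)
  cY1 : Continuous (uncurry Y1)
  cY2 : Continuous (uncurry Y2)
  cSY : Continuous (uncurry SY)
  pX : ∀ t θ, 0 < X t θ
  pY : ∀ t θ, 0 < Y t θ
  eX : ∀ t, t < L → ∀ θ, X2 t θ - 2 * d * X1 t θ + SX t θ - lam * X t θ + exp (w1 * t) * Y t θ ^ p = 0
  eY : ∀ t, t < L → ∀ θ, Y2 t θ + 2 * d * Y1 t θ + SY t θ - lam * Y t θ + exp (w2 * t) * X t θ ^ q = 0

namespace DatL

variable {p q d lam w1 w2 L : ℝ}

/-- The first potential term. -/
noncomputable def P (D : DatL S p q d lam w1 w2 L) (t : ℝ) (θ : S) : ℝ :=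
  exp (w1 * t) * D.Y t θ ^ (p + 1) / (p + 1)

/-- The second potential term. -/
noncomputable def Q (D : DatL S p q d lam w1 w2 L) (t : ℝ) (θ : S) : ℝ :=
  exp (w2 * t) * D.X t θ ^ (q + 1) / (q + 1)

/-- The Hamiltonian density. -/
noncomputable def dens (D : DatL S p q d lam w1 w2 L) (t : ℝ) (θ : S) : ℝ :=
  D.X1 t θ * D.Y1 t θ + D.SX t θ * D.Y t θ - lam * (D.X t θ * D.Y t θ) + D.P t θ + D.Q t θ

/-- The Hamiltonian. -/
noncomputable def H (sg : Measure S) (D : DatL S p q d lam w1 w2 L) (t : ℝ) : ℝ :=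
  ∫ θ, D.dens t θ ∂sg

/-- The growth density. -/
noncomputable def G (D : DatL S p q d lam w1 w2 L) (t : ℝ) (θ : S) : ℝ :=
  w1 * D.P t θ + w2 * D.Q t θ

lemma hasDerivAt_P (D : DatL S p q d lam w1 w2 L) (hp : 0 < p) (t : ℝ) (θ : S) :
    HasDerivAt (fun s => D.P s θ)
      (w1 * D.P t θ + exp (w1 * t) * D.Y t θ ^ p * D.Y1 t θ) t := by
  have h1 : HasDerivAt (fun s : ℝ => exp (w1 * s)) (exp (w1 * t) * (w1 * 1)) t :=
    ((hasDerivAt_id t).const_mul w1).exp
  have h2 : HasDerivAt (fun s => D.Y s θ ^ (p + 1))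
      (D.Y1 t θ * (p + 1) * D.Y t θ ^ (p + 1 - 1)) t :=
    (D.hY t θ).rpow_const (Or.inl (D.pY t θ).ne')
  have h3 := (h1.fun_mul h2).div_const (p + 1)
  refine h3.congr_deriv ?_
  have hp1 : p + 1 ≠ 0 := by positivity
  unfold P
  rw [show p + 1 - 1 = p by ring]
  field_simp

lemma hasDerivAt_Q (D : DatL S p q d lam w1 w2 L) (hq : 0 < q) (t : ℝ) (θ : S) :
    HasDerivAt (fun s => D.Q s θ)
      (w2 * D.Q t θ + exp (w2 * t) * D.X t θ ^ q * D.X1 t θ) t := by
  have h1 : HasDerivAt (fun s : ℝ => exp (w2 * s)) (exp (w2 * t) * (w2 * 1)) t :=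
    ((hasDerivAt_id t).const_mul w2).exp
  have h2 : HasDerivAt (fun s => D.X s θ ^ (q + 1))
      (D.X1 t θ * (q + 1) * D.X t θ ^ (q + 1 - 1)) t :=
    (D.hX t θ).rpow_const (Or.inl (D.pX t θ).ne')
  have h3 := (h1.fun_mul h2).div_const (q + 1)
  refine h3.congr_deriv ?_
  have hq1 : q + 1 ≠ 0 := by positivity
  unfold Q
  rw [show q + 1 - 1 = q by ring]
  field_simp

lemma cont_P (D : DatL S p q d lam w1 w2 L) (hp : 0 < p) : Continuous (uncurry D.P) := by
  have h1 : Continuous fun x : ℝ × S => D.Y x.1 x.2 ^ (p + 1) :=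
    D.cY.rpow_const fun x => Or.inr (by linarith only [hp])
  have h2 : Continuous fun x : ℝ × S => exp (w1 * x.1) := by fun_prop
  exact (h2.mul h1).div_const _

lemma cont_Q (D : DatL S p q d lam w1 w2 L) (hq : 0 < q) : Continuous (uncurry D.Q) := by
  have h1 : Continuous fun x : ℝ × S => D.X x.1 x.2 ^ (q + 1) :=
    D.cX.rpow_const fun x => Or.inr (by linarith only [hq])
  have h2 : Continuous fun x : ℝ × S => exp (w2 * x.1) := by fun_prop
  exact (h2.mul h1).div_const _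

lemma cont_Yp (D : DatL S p q d lam w1 w2 L) (hp : 0 < p) :
    Continuous fun x : ℝ × S => exp (w1 * x.1) * D.Y x.1 x.2 ^ p := by
  have h1 : Continuous fun x : ℝ × S => D.Y x.1 x.2 ^ p :=
    D.cY.rpow_const fun x => Or.inr hp.le
  have h2 : Continuous fun x : ℝ × S => exp (w1 * x.1) := by fun_prop
  exact h2.mul h1

lemma cont_Xq (D : DatL S p q d lam w1 w2 L) (hq : 0 < q) :
    Continuous fun x : ℝ × S => exp (w2 * x.1) * D.X x.1 x.2 ^ q := by
  have h1 : Continuous fun x : ℝ × S => D.X x.1 x.2 ^ q :=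
    D.cX.rpow_const fun x => Or.inr hq.le
  have h2 : Continuous fun x : ℝ × S => exp (w2 * x.1) := by fun_prop
  exact h2.mul h1

/-- Approximate Hamiltonian density. -/
noncomputable def hk (D : DatL S p q d lam w1 w2 L) {ι : Type*} [Fintype ι] (κ : ℝ) (R : ι → S → S)
    (t : ℝ) (θ : S) : ℝ :=
  D.X1 t θ * D.Y1 t θ + Lop κ R (D.X t) θ * D.Y t θ - lam * (D.X t θ * D.Y t θ) + D.P t θ + D.Q t θ

/-- Its axial derivative. -/
noncomputable def hk1 (D : DatL S p q d lam w1 w2 L) {ι : Type*} [Fintype ι] (κ : ℝ) (R : ι → S → S)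
    (t : ℝ) (θ : S) : ℝ :=
  (D.X2 t θ * D.Y1 t θ + D.X1 t θ * D.Y2 t θ) +
    (Lop κ R (D.X1 t) θ * D.Y t θ + Lop κ R (D.X t) θ * D.Y1 t θ) -
    lam * (D.X1 t θ * D.Y t θ + D.X t θ * D.Y1 t θ) +
    (w1 * D.P t θ + exp (w1 * t) * D.Y t θ ^ p * D.Y1 t θ) +
    (w2 * D.Q t θ + exp (w2 * t) * D.X t θ ^ q * D.X1 t θ)

section

variable {ι : Type*} [Fintype ι]

lemma hasDerivAt_hk (D : DatL S p q d lam w1 w2 L) (hp : 0 < p) (hq : 0 < q) (κ : ℝ) (R : ι → S → S)
    (t : ℝ) (θ : S) : HasDerivAt (fun s => D.hk κ R s θ) (D.hk1 κ R t θ) t := by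
  unfold hk hk1
  exact ((((((D.hX1 t θ).fun_mul (D.hY1 t θ))).fun_add
    ((Lop_hasDerivAt D.hX t θ).fun_mul (D.hY t θ))).fun_sub
    (((D.hX t θ).fun_mul (D.hY t θ)).const_mul lam)).fun_add (D.hasDerivAt_P hp t θ)).fun_add
    (D.hasDerivAt_Q hq t θ)

lemma cont_hk (D : DatL S p q d lam w1 w2 L) (hp : 0 < p) (hq : 0 < q) {κ : ℝ} {R : ι → S → S}
    (hR : ∀ i, Continuous (R i)) : Continuous (uncurry (D.hk κ R)) := by
  have h1 := Lop_cont (κ := κ) hR D.cX
  exact ((((D.cX1.mul D.cY1).add (h1.mul D.cY)).sub (continuous_const.mul (D.cX.mul D.cY))).add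
    (D.cont_P hp)).add (D.cont_Q hq)

lemma cont_hk1 (D : DatL S p q d lam w1 w2 L) (hp : 0 < p) (hq : 0 < q) {κ : ℝ} {R : ι → S → S}
    (hR : ∀ i, Continuous (R i)) : Continuous (uncurry (D.hk1 κ R)) := by
  have h1 := Lop_cont (κ := κ) hR D.cX
  have h2 := Lop_cont (κ := κ) hR D.cX1
  exact (((((D.cX2.mul D.cY1).add (D.cX1.mul D.cY2)).add ((h2.mul D.cY).add (h1.mul D.cY1))).sub
    (continuous_const.mul ((D.cX1.mul D.cY).add (D.cX.mul D.cY1)))).add
    ((continuous_const.mul (D.cont_P hp)).add ((D.cont_Yp hp).mul D.cY1))).add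
    ((continuous_const.mul (D.cont_Q hq)).add ((D.cont_Xq hq).mul D.cX1))

lemma cont_dens (D : DatL S p q d lam w1 w2 L) (hp : 0 < p) (hq : 0 < q) :
    Continuous (uncurry D.dens) :=
  ((((D.cX1.mul D.cY1).add (D.cSX.mul D.cY)).sub (continuous_const.mul (D.cX.mul D.cY))).add
    (D.cont_P hp)).add (D.cont_Q hq)

lemma cont_G (D : DatL S p q d lam w1 w2 L) (hp : 0 < p) (hq : 0 < q) :
    Continuous (uncurry D.G) :=
  (continuous_const.mul (D.cont_P hp)).add (continuous_const.mul (D.cont_Q hq))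

/-- The slice integral of the derivative of the approximate density. -/
lemma int_hk1 (D : DatL S p q d lam w1 w2 L) (hp : 0 < p) (hq : 0 < q) {κ : ℝ} {R : ι → S → S}
    (hR : ∀ i, Continuous (R i))
    (hsymm : ∀ F G : S → ℝ, Continuous F → Continuous G →
      ∫ θ, Lop κ R F θ * G θ ∂sg = ∫ θ, F θ * Lop κ R G θ ∂sg) (t : ℝ) (htL : t < L) :
    ∫ θ, D.hk1 κ R t θ ∂sg = ∫ θ, (D.G t θ + (D.Y1 t θ * (Lop κ R (D.X t) θ - D.SX t θ) +
      D.X1 t θ * (Lop κ R (D.Y t) θ - D.SY t θ))) ∂sg := by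
  have e := hsymm (D.X1 t) (D.Y t) (cont_slice D.cX1 t) (cont_slice D.cY t)
  have cLX := cont_slice (Lop_cont (κ := κ) hR D.cX) t
  have cLX1 := cont_slice (Lop_cont (κ := κ) hR D.cX1) t
  have cLY := cont_slice (Lop_cont (κ := κ) hR D.cY) t
  have cY := cont_slice D.cY t
  have cX1 := cont_slice D.cX1 t
  have i1 : Integrable (fun θ => Lop κ R (D.X1 t) θ * D.Y t θ) sg := integrable_cont (cLX1.mul cY)
  have i2 : Integrable (fun θ => D.X1 t θ * Lop κ R (D.Y t) θ) sg := integrable_cont (cX1.mul cLY)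
  have i0 : Integrable (fun θ => D.hk1 κ R t θ) sg := integrable_cont (cont_slice (D.cont_hk1 hp hq hR) t)
  have h1 : ∫ θ, D.hk1 κ R t θ ∂sg = ∫ θ, (D.hk1 κ R t θ - Lop κ R (D.X1 t) θ * D.Y t θ +
      D.X1 t θ * Lop κ R (D.Y t) θ) ∂sg := by
    have i3 : Integrable (fun θ => D.hk1 κ R t θ - Lop κ R (D.X1 t) θ * D.Y t θ) sg := i0.sub i1
    rw [integral_add i3 i2, integral_sub i0 i1, e]
    ring
  rw [h1]
  congr 1
  ext θ
  have e1 := D.eX t htL θ
  have e2 := D.eY t htL θ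
  unfold hk1 G
  linear_combination (D.Y1 t θ) * e1 + (D.X1 t θ) * e2

end

/-- **Growth identity.** `R k` is a sequence of families of maps such that the jump operators are
symmetric and converge uniformly to the spherical Laplacian. -/
theorem growth (D : DatL S p q d lam w1 w2 L) (hp : 0 < p) (hq : 0 < q) {ι : Type*} [Fintype ι]
    (κ : ℕ → ℝ) (R : ℕ → ι → S → S) (hR : ∀ k i, Continuous (R k i))
    (hsymm : ∀ k, ∀ F G : S → ℝ, Continuous F → Continuous G →
      ∫ θ, Lop (κ k) (R k) F θ * G θ ∂sg = ∫ θ, F θ * Lop (κ k) (R k) G θ ∂sg)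
    (hunifX : ∀ L : ℝ, ∀ e > 0, ∀ᶠ k in atTop, ∀ s, |s| ≤ L → ∀ θ,
      |Lop (κ k) (R k) (D.X s) θ - D.SX s θ| ≤ e)
    (hunifY : ∀ L : ℝ, ∀ e > 0, ∀ᶠ k in atTop, ∀ s, |s| ≤ L → ∀ θ,
      |Lop (κ k) (R k) (D.Y s) θ - D.SY s θ| ≤ e) {a b : ℝ} (hab : a ≤ b) (hbL : b < L) :
    D.H sg b - D.H sg a = ∫ s in a..b, (∫ θ, D.G s θ ∂sg) := by
  set L0 : ℝ := max |a| |b| with hL0
  have hs : ∀ s ∈ Icc a b, |s| ≤ L0 := fun s hs => abs_le_max_abs_abs hs.1 hs.2
  -- bounds for the derivatives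
  obtain ⟨M1, hM1⟩ := ((isCompact_Icc (a := a) (b := b)).prod
    (isCompact_univ (X := S))).exists_bound_of_continuousOn D.cX1.continuousOn
  obtain ⟨M2, hM2⟩ := ((isCompact_Icc (a := a) (b := b)).prod
    (isCompact_univ (X := S))).exists_bound_of_continuousOn D.cY1.continuousOn
  obtain ⟨M3, hM3⟩ := ((isCompact_Icc (a := a) (b := b)).prod
    (isCompact_univ (X := S))).exists_bound_of_continuousOn D.cY.continuousOn
  set M : ℝ := |M1| + |M2| + |M3| with hM
  set W : ℝ := sg.real univ with hW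
  have hW0 : 0 ≤ W := measureReal_nonneg
  have key : ∀ e > 0, |(D.H sg b - D.H sg a) - ∫ s in a..b, (∫ θ, D.G s θ ∂sg)| ≤
      e * (M * W * 2 + 2 * M * W * (b - a)) := by
    intro e he
    obtain ⟨k, hkX, hkY⟩ := ((hunifX L0 e he).and (hunifY L0 e he)).exists
    have hf := slice_ftc (sg := sg) (D.hasDerivAt_hk hp hq (κ k) (R k)) (D.cont_hk hp hq (hR k))
      (D.cont_hk1 hp hq (hR k)) a b
    have hdiff : ∀ t ∈ Icc a b, |(∫ θ, D.hk (κ k) (R k) t θ ∂sg) - D.H sg t| ≤ e * (M * W) := by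
      intro t ht
      unfold H
      rw [← integral_sub (integrable_cont (cont_slice (D.cont_hk hp hq (hR k)) t))
        (integrable_cont (cont_slice (D.cont_dens hp hq) t))]
      have : ∀ θ, |D.hk (κ k) (R k) t θ - D.dens t θ| ≤ e * M := by
        intro θ
        have h1 : D.hk (κ k) (R k) t θ - D.dens t θ =
            (Lop (κ k) (R k) (D.X t) θ - D.SX t θ) * D.Y t θ := by
          unfold hk dens; ring
        rw [h1, abs_mul]
        have h2 := hkX t (hs t ht) θ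
        have h3 : |D.Y t θ| ≤ M3 := hM3 (t, θ) ⟨ht, mem_univ _⟩
        have h4 : |D.Y t θ| ≤ M := h3.trans ((le_abs_self _).trans (by
          rw [hM]; have := abs_nonneg M1; have := abs_nonneg M2; linarith))
        exact mul_le_mul h2 h4 (abs_nonneg _) he.le
      have h5 := norm_integral_le_of_norm_le_const (μ := sg) (f := fun θ =>
        D.hk (κ k) (R k) t θ - D.dens t θ) (Eventually.of_forall this)
      rw [Real.norm_eq_abs] at h5
      calc _ ≤ e * M * sg.real univ := h5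
        _ = _ := by rw [← hW]; ring
    have hcr : ∀ s ∈ Icc a b, |(∫ θ, D.hk1 (κ k) (R k) s θ ∂sg) - ∫ θ, D.G s θ ∂sg| ≤
        2 * e * M * W := by
      intro s hs'
      rw [D.int_hk1 hp hq (hR k) (hsymm k) s (lt_of_le_of_lt hs'.2 hbL)]
      have cLX := cont_slice (Lop_cont (κ := κ k) (hR k) D.cX) s
      have cLY := cont_slice (Lop_cont (κ := κ k) (hR k) D.cY) s
      have c1 : Continuous fun θ => (D.Y1 s θ * (Lop (κ k) (R k) (D.X s) θ - D.SX s θ) +
          D.X1 s θ * (Lop (κ k) (R k) (D.Y s) θ - D.SY s θ)) :=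
        ((cont_slice D.cY1 s).mul (cLX.sub (cont_slice D.cSX s))).add
          ((cont_slice D.cX1 s).mul (cLY.sub (cont_slice D.cSY s)))
      rw [integral_add (integrable_cont (cont_slice (D.cont_G hp hq) s)) (integrable_cont c1),
        add_sub_cancel_left]
      have : ∀ θ, |D.Y1 s θ * (Lop (κ k) (R k) (D.X s) θ - D.SX s θ) +
          D.X1 s θ * (Lop (κ k) (R k) (D.Y s) θ - D.SY s θ)| ≤ 2 * e * M := by
        intro θ
        have h1 : |D.X1 s θ| ≤ M := (hM1 (s, θ) ⟨hs', mem_univ _⟩).trans ((le_abs_self _).trans (by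
          rw [hM]; have := abs_nonneg M2; have := abs_nonneg M3; linarith))
        have h2 : |D.Y1 s θ| ≤ M := (hM2 (s, θ) ⟨hs', mem_univ _⟩).trans ((le_abs_self _).trans (by
          rw [hM]; have := abs_nonneg M1; have := abs_nonneg M3; linarith))
        have h3 := hkX s (hs s hs') θ
        have h4 := hkY s (hs s hs') θ
        have h5 : |D.Y1 s θ * (Lop (κ k) (R k) (D.X s) θ - D.SX s θ)| ≤ M * e := by
          rw [abs_mul]; exact mul_le_mul h2 h3 (abs_nonneg _) ((abs_nonneg _).trans h2)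
        have h6 : |D.X1 s θ * (Lop (κ k) (R k) (D.Y s) θ - D.SY s θ)| ≤ M * e := by
          rw [abs_mul]; exact mul_le_mul h1 h4 (abs_nonneg _) ((abs_nonneg _).trans h1)
        calc _ ≤ _ := abs_add_le _ _
          _ ≤ 2 * e * M := by linarith only [h5, h6]
      have h5 := norm_integral_le_of_norm_le_const (μ := sg) (f := fun θ =>
        D.Y1 s θ * (Lop (κ k) (R k) (D.X s) θ - D.SX s θ) +
          D.X1 s θ * (Lop (κ k) (R k) (D.Y s) θ - D.SY s θ)) (Eventually.of_forall this)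
      rw [Real.norm_eq_abs] at h5
      exact h5
    have hint : |(∫ s in a..b, (∫ θ, D.hk1 (κ k) (R k) s θ ∂sg)) -
        ∫ s in a..b, (∫ θ, D.G s θ ∂sg)| ≤ 2 * e * M * W * (b - a) := by
      rw [← intervalIntegral.integral_sub
        ((cont_int (D.cont_hk1 hp hq (hR k))).intervalIntegrable _ _)
        ((cont_int (D.cont_G hp hq)).intervalIntegrable _ _)]
      have := intervalIntegral.norm_integral_le_of_norm_le_const (a := a) (b := b)
        (C := 2 * e * M * W) (f := fun s => (∫ θ, D.hk1 (κ k) (R k) s θ ∂sg) - ∫ θ, D.G s θ ∂sg) (by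
          intro s hs'
          rw [uIoc_of_le hab] at hs'
          exact hcr s (Ioc_subset_Icc_self hs'))
      rwa [abs_of_nonneg (by linarith : 0 ≤ b - a)] at this
    have h1 := hdiff a (left_mem_Icc.2 hab)
    have h2 := hdiff b (right_mem_Icc.2 hab)
    have e1 : (D.H sg b - D.H sg a) - ∫ s in a..b, (∫ θ, D.G s θ ∂sg) =
        -((∫ θ, D.hk (κ k) (R k) b θ ∂sg) - D.H sg b) +
        ((∫ θ, D.hk (κ k) (R k) a θ ∂sg) - D.H sg a) +
        ((∫ s in a..b, (∫ θ, D.hk1 (κ k) (R k) s θ ∂sg)) - ∫ s in a..b, (∫ θ, D.G s θ ∂sg)) := by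
      rw [← hf]; ring
    rw [e1]
    have h3 := abs_add_le (-((∫ θ, D.hk (κ k) (R k) b θ ∂sg) - D.H sg b) +
        ((∫ θ, D.hk (κ k) (R k) a θ ∂sg) - D.H sg a))
        ((∫ s in a..b, (∫ θ, D.hk1 (κ k) (R k) s θ ∂sg)) - ∫ s in a..b, (∫ θ, D.G s θ ∂sg))
    have h4 := abs_add_le (-((∫ θ, D.hk (κ k) (R k) b θ ∂sg) - D.H sg b))
        ((∫ θ, D.hk (κ k) (R k) a θ ∂sg) - D.H sg a)
    rw [abs_neg] at h4
    linarith only [hint, h1, h2, h3, h4]
  have hM0 : 0 ≤ M := by rw [hM]; (clear * -; positivity)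
  have hC0 : 0 ≤ M * W * 2 + 2 * M * W * (b - a) := by
    have : 0 ≤ b - a := by linarith only [hab]
    (clear * - hab; positivity)
  have hzero : |(D.H sg b - D.H sg a) - ∫ s in a..b, (∫ θ, D.G s θ ∂sg)| ≤ 0 := by
    apply le_of_forall_pos_le_add
    intro ε hε
    set C := M * W * 2 + 2 * M * W * (b - a) with hC
    have := key (ε / (C + 1)) (by (clear * - hε hab; positivity))
    refine this.trans ?_
    rw [zero_add, div_mul_eq_mul_div, div_le_iff₀ (by (clear * - hab; positivity))]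
    nlinarith only [hε]
  have := abs_nonpos_iff.1 hzero
  linarith only [this]

end DatL

end Vale.Agent.P100.RM


open MeasureTheory Set Filter Topology Real Function

namespace Vale.Agent.P100.RM

noncomputable section

variable {n : ℕ}

/-- The cylinder data of a solution, exponents `c + d` and `c - d`, `c = (n-2)/2`. -/
def datL {p q A B L : ℝ} {u v : E n → ℝ} (hs : LSol n p q A B L u v) (d : ℝ) :
    DatL (Sph n) p q d ((((n : ℝ) - 2) / 2) ^ 2 - d ^ 2)
      ((((n : ℝ) - 2) / 2 + d) + 2 + A - p * (((n : ℝ) - 2) / 2 - d))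
      ((((n : ℝ) - 2) / 2 - d) + 2 + B - q * (((n : ℝ) - 2) / 2 + d)) L where
  X := cy0 (((n : ℝ) - 2) / 2 + d) u
  X1 := cy1 (((n : ℝ) - 2) / 2 + d) u
  X2 := cy2 (((n : ℝ) - 2) / 2 + d) u
  SX := cyS (((n : ℝ) - 2) / 2 + d) u
  Y := cy0 (((n : ℝ) - 2) / 2 - d) v
  Y1 := cy1 (((n : ℝ) - 2) / 2 - d) v
  Y2 := cy2 (((n : ℝ) - 2) / 2 - d) v
  SY := cyS (((n : ℝ) - 2) / 2 - d) v
  hX t θ := hasDerivAt_cy0 hs.contDiffOn_u _ t θ
  hX1 t θ := hasDerivAt_cy1 hs.contDiffOn_u _ t θ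
  hY t θ := hasDerivAt_cy0 hs.contDiffOn_v _ t θ
  hY1 t θ := hasDerivAt_cy1 hs.contDiffOn_v _ t θ
  cX := continuous_cy0 hs.contDiffOn_u _
  cX1 := continuous_cy1 hs.contDiffOn_u _
  cX2 := continuous_cy2 hs.contDiffOn_u _
  cSX := continuous_cyS hs.contDiffOn_u _
  cY := continuous_cy0 hs.contDiffOn_v _
  cY1 := continuous_cy1 hs.contDiffOn_v _
  cY2 := continuous_cy2 hs.contDiffOn_v _
  cSY := continuous_cyS hs.contDiffOn_v _
  pX t θ := mul_pos (exp_pos _) (hs.pos_u _)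
  pY t θ := mul_pos (exp_pos _) (hs.pos_v _)
  eX t ht θ := by
    have := cy_eqL hs (((n : ℝ) - 2) / 2 + d) (((n : ℝ) - 2) / 2 - d) t ht θ
    linear_combination this
  eY t ht θ := by
    have := cy_eqL hs.symm (((n : ℝ) - 2) / 2 - d) (((n : ℝ) - 2) / 2 + d) t ht θ
    linear_combination this

/-- The rescaled Hamiltonian is the Hamiltonian of the cylinder data. -/
lemma ham_eqL {p q A B L α β d : ℝ} (h1 : α + 2 + A = β * p) (h2 : β + 2 + B = α * q)
    {u v : E n → ℝ} (hs : LSol n p q A B L u v) (t : ℝ) :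
    exp (-(α + β - ((n : ℝ) - 2)) * t) * Ham n p q d (scl α t u) (scl β t v) =
      (datL hs d).H (sg n) t := by
  unfold Ham DatL.H
  rw [← integral_const_mul]
  congr 1
  ext θ
  obtain ⟨a0, a1, a2, aS⟩ := cy_scl hs.contDiffOn_u α (((n : ℝ) - 2) / 2 + d) t 0 θ
  obtain ⟨b0, b1, b2, bS⟩ := cy_scl hs.contDiffOn_v β (((n : ℝ) - 2) / 2 - d) t 0 θ
  rw [a0, a1, aS, b0, b1]
  rw [zero_add]
  have hc : exp (-(α + β - ((n : ℝ) - 2)) * t) * (exp ((α - (((n : ℝ) - 2) / 2 + d)) * t) *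
      exp ((β - (((n : ℝ) - 2) / 2 - d)) * t)) = 1 := by
    rw [← exp_add, ← exp_add, exp_eq_one_iff]
    ring
  have p1 := pot_eq (p := p) (A := A) (d := d) (t := t) (hs.pos_v (exp t • (θ : E n))) h1
    (δ := α + β - ((n : ℝ) - 2)) (c := ((n : ℝ) - 2) / 2) (by ring)
  have p2 := pot_eq (p := q) (A := B) (d := -d) (t := t) (hs.pos_u (exp t • (θ : E n))) h2
    (δ := α + β - ((n : ℝ) - 2)) (c := ((n : ℝ) - 2) / 2) (by ring)
  have p2' : exp (-(α + β - ((n : ℝ) - 2)) * t) *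
      ((exp (α * t) * u (exp t • (θ : E n))) ^ (q + 1)) =
      exp (((((n : ℝ) - 2) / 2 - d) + 2 + B - q * (((n : ℝ) - 2) / 2 + d)) * t) *
        (exp ((((n : ℝ) - 2) / 2 + d) * t) * u (exp t • (θ : E n))) ^ (q + 1) := by
    rw [p2]
    ring_nf
  have dP : (datL hs d).P t θ = exp (((((n : ℝ) - 2) / 2 + d) + 2 + A -
      p * (((n : ℝ) - 2) / 2 - d)) * t) *
      (exp ((((n : ℝ) - 2) / 2 - d) * t) * v (exp t • (θ : E n))) ^ (p + 1) / (p + 1) := rfl
  have dQ : (datL hs d).Q t θ = exp (((((n : ℝ) - 2) / 2 - d) + 2 + B -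
      q * (((n : ℝ) - 2) / 2 + d)) * t) *
      (exp ((((n : ℝ) - 2) / 2 + d) * t) * u (exp t • (θ : E n))) ^ (q + 1) / (q + 1) := rfl
  have dd : (datL hs d).dens t θ = cy1 (((n : ℝ) - 2) / 2 + d) u t θ *
      cy1 (((n : ℝ) - 2) / 2 - d) v t θ + cyS (((n : ℝ) - 2) / 2 + d) u t θ *
      cy0 (((n : ℝ) - 2) / 2 - d) v t θ - ((((n : ℝ) - 2) / 2) ^ 2 - d ^ 2) *
      (cy0 (((n : ℝ) - 2) / 2 + d) u t θ * cy0 (((n : ℝ) - 2) / 2 - d) v t θ) +
      (datL hs d).P t θ + (datL hs d).Q t θ := rfl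
  rw [dd, dP, dQ, ← p1, ← p2', scl_one_exp, scl_one_exp]
  set e0 := exp (-(α + β - ((n : ℝ) - 2)) * t)
  set e1 := exp ((α - (((n : ℝ) - 2) / 2 + d)) * t)
  set e2 := exp ((β - (((n : ℝ) - 2) / 2 - d)) * t)
  linear_combination (cy1 (((n : ℝ) - 2) / 2 + d) u t θ * cy1 (((n : ℝ) - 2) / 2 - d) v t θ +
    cyS (((n : ℝ) - 2) / 2 + d) u t θ * cy0 (((n : ℝ) - 2) / 2 - d) v t θ -
    ((((n : ℝ) - 2) / 2) ^ 2 - d ^ 2) *
    (cy0 (((n : ℝ) - 2) / 2 + d) u t θ * cy0 (((n : ℝ) - 2) / 2 - d) v t θ)) * hc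

/-- The growth identity for the cylinder data. -/
lemma dat_growthL {p q A B L d : ℝ} (hp : 0 < p) (hq : 0 < q) {u v : E n → ℝ}
    (hs : LSol n p q A B L u v) {a b : ℝ} (hab : a ≤ b) (hbL : b < L) :
    (datL hs d).H (sg n) b - (datL hs d).H (sg n) a =
      ∫ s in a..b, (∫ θ, (datL hs d).G s θ ∂(sg n)) := by
  have hunif : ∀ {w : E n → ℝ}, ContDiffOn ℝ 2 w {0}ᶜ → ∀ g : ℝ, ∀ L : ℝ, ∀ e > 0,
      ∀ᶠ k in atTop, ∀ s, |s| ≤ L → ∀ θ,
      |Lop ((eps k ^ 2)⁻¹) (rotS n (eps k)) (cy0 g w s) θ - cyS g w s θ| ≤ e := by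
    intro w hw g L e he
    obtain ⟨ε0, h0, h1⟩ := Lop_unif hw g L e he
    filter_upwards [eps_tendsto.eventually_lt_const h0] with k hk
    exact h1 (eps k) (eps_pos k) hk
  exact (datL hs d).growth hp hq (fun k => (eps k ^ 2)⁻¹) (fun k => rotS n (eps k))
    (fun k i => continuous_rotS _ _) (fun k F G hF hG => Lsym _ _ hF hG)
    (fun L e he => hunif hs.contDiffOn_u _ L e he) (fun L e he => hunif hs.contDiffOn_v _ L e he)
    hab hbL

theorem growL (_hn : 3 ≤ n) {p q A B L α β d : ℝ} (hp : 0 < p) (hq : 0 < q) (_hA : -2 < A)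
    (_hB : -2 < B) (h1 : α + 2 + A = β * p) (h2 : β + 2 + B = α * q)
    (_hd : |d| < ((n : ℝ) - 2) / 2)
    {u v : E n → ℝ} (hs : LSol n p q A B L u v) {t1 t2 : ℝ} (ht : t1 ≤ t2) (ht2 : t2 < L) :
    exp (-(α + β - ((n : ℝ) - 2)) * t2) * Ham n p q d (scl α t2 u) (scl β t2 v)
      - exp (-(α + β - ((n : ℝ) - 2)) * t1) * Ham n p q d (scl α t1 u) (scl β t1 v)
      = ∫ s in t1..t2, exp (-(α + β - ((n : ℝ) - 2)) * s) *
        ∫ θ : Sph n, ((p * (β - ((n : ℝ) - 2) / 2 + d) - (α - ((n : ℝ) - 2) / 2 - d)) / (p + 1) *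
            (scl β s v (θ : E n)) ^ (p + 1)
          + (q * (α - ((n : ℝ) - 2) / 2 - d) - (β - ((n : ℝ) - 2) / 2 + d)) / (q + 1) *
            (scl α s u (θ : E n)) ^ (q + 1)) ∂(sg n) := by
  rw [ham_eqL h1 h2 hs, ham_eqL h1 h2 hs, dat_growthL hp hq hs ht ht2]
  congr 1
  ext s
  rw [← integral_const_mul]
  congr 1
  ext θ
  have p1 := pot_eq (p := p) (A := A) (d := d) (t := s) (hs.pos_v (exp s • (θ : E n))) h1
    (δ := α + β - ((n : ℝ) - 2)) (c := ((n : ℝ) - 2) / 2) (by ring)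
  have p2 := pot_eq (p := q) (A := B) (d := -d) (t := s) (hs.pos_u (exp s • (θ : E n))) h2
    (δ := α + β - ((n : ℝ) - 2)) (c := ((n : ℝ) - 2) / 2) (by ring)
  have p2' : exp (-(α + β - ((n : ℝ) - 2)) * s) *
      ((exp (α * s) * u (exp s • (θ : E n))) ^ (q + 1)) =
      exp (((((n : ℝ) - 2) / 2 - d) + 2 + B - q * (((n : ℝ) - 2) / 2 + d)) * s) *
        (exp ((((n : ℝ) - 2) / 2 + d) * s) * u (exp s • (θ : E n))) ^ (q + 1) := by
    rw [p2]
    ring_nf
  have dG : (datL hs d).G s θ = ((((n : ℝ) - 2) / 2 + d) + 2 + A - p * (((n : ℝ) - 2) / 2 - d)) *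
      (exp (((((n : ℝ) - 2) / 2 + d) + 2 + A - p * (((n : ℝ) - 2) / 2 - d)) * s) *
      (exp ((((n : ℝ) - 2) / 2 - d) * s) * v (exp s • (θ : E n))) ^ (p + 1) / (p + 1)) +
      ((((n : ℝ) - 2) / 2 - d) + 2 + B - q * (((n : ℝ) - 2) / 2 + d)) *
      (exp (((((n : ℝ) - 2) / 2 - d) + 2 + B - q * (((n : ℝ) - 2) / 2 + d)) * s) *
      (exp ((((n : ℝ) - 2) / 2 + d) * s) * u (exp s • (θ : E n))) ^ (q + 1) / (q + 1)) := rfl
  rw [dG, ← p1, ← p2', scl_one_exp, scl_one_exp]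
  have w1 : (((n : ℝ) - 2) / 2 + d) + 2 + A - p * (((n : ℝ) - 2) / 2 - d) =
      p * (β - ((n : ℝ) - 2) / 2 + d) - (α - ((n : ℝ) - 2) / 2 - d) := by
    linear_combination h1
  have w2 : (((n : ℝ) - 2) / 2 - d) + 2 + B - q * (((n : ℝ) - 2) / 2 + d) =
      q * (α - ((n : ℝ) - 2) / 2 - d) - (β - ((n : ℝ) - 2) / 2 + d) := by
    linear_combination h2
  rw [w1, w2]
  ring

open GrowL

theorem grow_limL (hn : 3 ≤ n) {p q A B L α β d : ℝ} (hL : 1 < L) (hp : 0 < p) (hq : 0 < q) (hA : -2 < A)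
    (hB : -2 < B) (h1 : α + 2 + A = β * p) (h2 : β + 2 + B = α * q)
    (hd : |d| < ((n : ℝ) - 2) / 2)
    (hω1 : 0 < p * (β - ((n : ℝ) - 2) / 2 + d) - (α - ((n : ℝ) - 2) / 2 - d))
    (hω2 : 0 < q * (α - ((n : ℝ) - 2) / 2 - d) - (β - ((n : ℝ) - 2) / 2 + d))
    {u v : E n → ℝ} (hs : LSol n p q A B L u v) :
    Tendsto (fun t => exp (-(α + β - ((n : ℝ) - 2)) * t) *
      Ham n p q d (scl α t u) (scl β t v)) atBot (𝓝 0) := by
  obtain ⟨g, hg⟩ : ∃ g, g = ((n : ℝ) - 2) / 2 + d := ⟨_, rfl⟩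
  obtain ⟨h, hh⟩ : ∃ h, h = ((n : ℝ) - 2) / 2 - d := ⟨_, rfl⟩
  have hg0 : 0 < g := by rw [hg]; linarith only [hd, neg_abs_le d]
  have hh0 : 0 < h := by rw [hh]; linarith only [hd, le_abs_self d]
  obtain ⟨Cu, hCu, hbu⟩ := near_boundL hn hL hA hp hs
  obtain ⟨Cv, hCv, hbv⟩ := near_boundL hn hL hB hq hs.symm
  obtain ⟨Gu, hGu, hgu⟩ := grad_nearL hn hL hA hp hs
  obtain ⟨Gv, hGv, hgv⟩ := grad_nearL hn hL hB hq hs.symm
  obtain ⟨S, hSe⟩ : ∃ S, S = (sg n).real univ := ⟨_, rfl⟩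
  have hS : 0 ≤ S := hSe ▸ measureReal_nonneg
  obtain ⟨l, hl⟩ : ∃ l, l = |(((n : ℝ) - 2) / 2) ^ 2 - d ^ 2| := ⟨_, rfl⟩
  have hl0 : 0 ≤ l := hl ▸ abs_nonneg _
  obtain ⟨e1, he1⟩ : ∃ e1, e1 = -(α + β - ((n : ℝ) - 2)) + β * (p + 1) := ⟨_, rfl⟩
  obtain ⟨e2, he2⟩ : ∃ e2, e2 = -(α + β - ((n : ℝ) - 2)) + α * (q + 1) := ⟨_, rfl⟩
  have he1p : 0 < e1 := by
    have : e1 = (p * (β - ((n : ℝ) - 2) / 2 + d) - (α - ((n : ℝ) - 2) / 2 - d)) + h * (p + 1) := by
      rw [he1, hh]; ring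
    rw [this]; (clear * - hω1 hh0 hp; positivity)
  have he2p : 0 < e2 := by
    have : e2 = (q * (α - ((n : ℝ) - 2) / 2 - d) - (β - ((n : ℝ) - 2) / 2 + d)) + g * (q + 1) := by
      rw [he2, hg]; ring
    rw [this]; (clear * - hω2 hg0 hq; positivity)
  obtain ⟨K1, hK1⟩ : ∃ K1, K1 = (n : ℝ) ^ 2 * (Gu * Gv) * S +
    (((g + 1) * Cu) * ((h + 1) * Cv) + l * (Cu * Cv)) * S := ⟨_, rfl⟩
  obtain ⟨K2, hK2⟩ : ∃ K2, K2 = Cv ^ (p + 1) / (p + 1) * S := ⟨_, rfl⟩
  obtain ⟨K3, hK3⟩ : ∃ K3, K3 = Cu ^ (q + 1) / (q + 1) * S := ⟨_, rfl⟩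
  have key : ∀ t ≤ (0 : ℝ), |exp (-(α + β - ((n : ℝ) - 2)) * t) *
      Ham n p q d (scl α t u) (scl β t v)| ≤
      K1 * exp ((g + h) * t) + K2 * exp (e1 * t) + K3 * exp (e2 * t) := by
    intro t ht
    have hct : Continuous fun θ : Sph n => ((t, θ) : ℝ × Sph n) := by fun_prop
    have hu := hs.contDiffOn_u
    have hv := hs.contDiffOn_v
    have c0u : Continuous fun θ => cy0 g u t θ := (continuous_cy0 hu g).comp hct
    have c0v : Continuous fun θ => cy0 h v t θ := (continuous_cy0 hv h).comp hct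
    have c1u : Continuous fun θ => cy1 g u t θ := (continuous_cy1 hu g).comp hct
    have c1v : Continuous fun θ => cy1 h v t θ := (continuous_cy1 hv h).comp hct
    have cSu : Continuous fun θ => cyS g u t θ := (continuous_cyS hu g).comp hct
    have hcs : Continuous fun θ : Sph n => exp t • (θ : E n) := by fun_prop
    have hsv : Continuous fun θ : Sph n => (scl β t v (θ : E n)) ^ (p + 1) / (p + 1) := by
      apply Continuous.div_const
      apply Continuous.rpow_const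
      · unfold scl
        exact continuous_const.mul (hs.continuous_v.comp hcs)
      · exact fun θ => Or.inr (by linarith only [hp])
    have hsu : Continuous fun θ : Sph n => (scl α t u (θ : E n)) ^ (q + 1) / (q + 1) := by
      apply Continuous.div_const
      apply Continuous.rpow_const
      · unfold scl
        exact continuous_const.mul (hs.continuous_u.comp hcs)
      · exact fun θ => Or.inr (by linarith only [hq])
    have hex : exp ((α - g) * t) * exp ((β - h) * t) =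
        exp ((α + β - ((n : ℝ) - 2)) * t) := by
      rw [← exp_add]
      congr 1
      rw [hg, hh]
      ring
    have hexx : exp (-(α + β - ((n : ℝ) - 2)) * t) * exp ((α + β - ((n : ℝ) - 2)) * t) = 1 := by
      rw [← exp_add, neg_mul, neg_add_cancel, exp_zero]
    have hHam : Ham n p q d (scl α t u) (scl β t v) =
        exp ((α + β - ((n : ℝ) - 2)) * t) * (∫ θ, cyS g u t θ * cy0 h v t θ ∂(sg n)) +
        (exp ((α + β - ((n : ℝ) - 2)) * t) *
          (∫ θ, (cy1 g u t θ * cy1 h v t θ -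
            ((((n : ℝ) - 2) / 2) ^ 2 - d ^ 2) * (cy0 g u t θ * cy0 h v t θ)) ∂(sg n)) +
        ∫ θ : Sph n, ((scl β t v (θ : E n)) ^ (p + 1) / (p + 1) +
          (scl α t u (θ : E n)) ^ (q + 1) / (q + 1)) ∂(sg n)) := by
      rw [← integral_const_mul, ← integral_const_mul, ← integral_add, ← integral_add]
      · unfold Ham
        congr 1
        ext θ
        obtain ⟨a0, a1, -, aS⟩ := cy_scl (α := α) hu g t 0 θ
        obtain ⟨b0, b1, -, -⟩ := cy_scl (α := β) hv h t 0 θ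
        rw [zero_add] at a0 a1 aS b0 b1
        rw [← hg, ← hh, a0, a1, aS, b0, b1, ← hex]
        ring
      · exact integrable_cont (continuous_const.mul (cSu.mul c0v))
      · exact integrable_cont ((continuous_const.mul ((c1u.mul c1v).sub
          (continuous_const.mul (c0u.mul c0v)))).add (hsv.add hsu))
      · exact integrable_cont (continuous_const.mul ((c1u.mul c1v).sub
          (continuous_const.mul (c0u.mul c0v))))
      · exact integrable_cont (hsv.add hsu)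
    have hI2 : |∫ θ, cyS g u t θ * cy0 h v t θ ∂(sg n)| ≤
        (n : ℝ) ^ 2 * exp ((g + h) * t) * (Gu * Gv) * S := by
      rw [hSe]
      have het : exp t ≤ 1 := Real.exp_le_one_iff.2 ht
      apply form_bound hu hv g h t (M0 := exp (h * t) * Cv)
      · intro x hx
        have hx0 : x ≠ 0 := by
          rintro rfl
          rw [norm_zero] at hx
          exact (exp_pos t).ne hx
        rw [← hx]
        exact hgu x hx0 (by rw [hx]; exact het)
      · intro x hx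
        have hx0 : x ≠ 0 := by
          rintro rfl
          rw [norm_zero] at hx
          exact (exp_pos t).ne hx
        rw [← hx]
        exact hgv x hx0 (by rw [hx]; exact het)
      · exact fun θ => (bd_cy hh0.le hbv ht θ).1
    have hI1 : |∫ θ, (cy1 g u t θ * cy1 h v t θ -
        ((((n : ℝ) - 2) / 2) ^ 2 - d ^ 2) * (cy0 g u t θ * cy0 h v t θ)) ∂(sg n)| ≤
        (exp ((g + h) * t) * (((g + 1) * Cu) * ((h + 1) * Cv) + l * (Cu * Cv))) * S := by
      rw [hSe, ← Real.norm_eq_abs]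
      apply norm_integral_le_of_norm_le_const
      refine Filter.Eventually.of_forall fun θ => ?_
      obtain ⟨x0, x1⟩ := bd_cy (t := t) hg0.le hbu ht θ
      obtain ⟨y0, y1⟩ := bd_cy (t := t) hh0.le hbv ht θ
      rw [Real.norm_eq_abs]
      refine (abs_sub _ _).trans ?_
      rw [abs_mul, abs_mul, abs_mul, ← hl, add_mul g h t, exp_add]
      have hc1 := mul_le_mul x1 y1 (abs_nonneg _) (by (clear * - hg0 hCu; positivity))
      have hc0 := mul_le_mul_of_nonneg_left (mul_le_mul x0 y0 (abs_nonneg _) (by (clear * - hCu; positivity))) hl0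
      calc |cy1 g u t θ| * |cy1 h v t θ| + l * (|cy0 g u t θ| * |cy0 h v t θ|)
          ≤ (exp (g * t) * ((g + 1) * Cu)) * (exp (h * t) * ((h + 1) * Cv)) +
            l * ((exp (g * t) * Cu) * (exp (h * t) * Cv)) := add_le_add hc1 hc0
        _ = _ := by ring
    have hI4 : |∫ θ : Sph n, ((scl β t v (θ : E n)) ^ (p + 1) / (p + 1) +
          (scl α t u (θ : E n)) ^ (q + 1) / (q + 1)) ∂(sg n)| ≤
        (exp (β * (p + 1) * t) * (Cv ^ (p + 1) / (p + 1)) +
          exp (α * (q + 1) * t) * (Cu ^ (q + 1) / (q + 1))) * S := by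
      rw [hSe, ← Real.norm_eq_abs]
      apply norm_integral_le_of_norm_le_const
      refine Filter.Eventually.of_forall fun θ => ?_
      have hx := expsmul_ne_zero t θ
      have hx1 : ‖exp t • (θ : E n)‖ ≤ 1 := by
        rw [norm_expsmul]
        exact Real.exp_le_one_iff.2 ht
      have hvb := (abs_le.1 (hbv _ hx hx1).1).2
      have hub := (abs_le.1 (hbu _ hx hx1).1).2
      have hv0 := (hs.pos_v (exp t • (θ : E n))).le
      have hu0 := (hs.pos_u (exp t • (θ : E n))).le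
      have hpp : 0 < p + 1 := by linarith only [hp]
      have hqq : 0 < q + 1 := by linarith only [hq]
      have hr1 : (scl β t v (θ : E n)) ^ (p + 1) ≤ exp (β * (p + 1) * t) * Cv ^ (p + 1) := by
        unfold scl
        rw [Real.mul_rpow (exp_pos _).le hv0, ← Real.exp_mul]
        have : β * t * (p + 1) = β * (p + 1) * t := by ring
        rw [this]
        exact mul_le_mul_of_nonneg_left (Real.rpow_le_rpow hv0 hvb hpp.le) (exp_pos _).le
      have hr2 : (scl α t u (θ : E n)) ^ (q + 1) ≤ exp (α * (q + 1) * t) * Cu ^ (q + 1) := by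
        unfold scl
        rw [Real.mul_rpow (exp_pos _).le hu0, ← Real.exp_mul]
        have : α * t * (q + 1) = α * (q + 1) * t := by ring
        rw [this]
        exact mul_le_mul_of_nonneg_left (Real.rpow_le_rpow hu0 hub hqq.le) (exp_pos _).le
      have hn1 : 0 ≤ (scl β t v (θ : E n)) ^ (p + 1) := by
        apply Real.rpow_nonneg
        unfold scl
        exact mul_nonneg (exp_pos _).le hv0
      have hn2 : 0 ≤ (scl α t u (θ : E n)) ^ (q + 1) := by
        apply Real.rpow_nonneg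
        unfold scl
        exact mul_nonneg (exp_pos _).le hu0
      rw [Real.norm_eq_abs, abs_of_nonneg (by (clear * - hn1 hp hn2 hq; positivity)), ← mul_div_assoc, ← mul_div_assoc]
      (clear * - hr1 hp hr2 hq; gcongr)
    rw [hHam, mul_add, mul_add, ← mul_assoc, ← mul_assoc, hexx, one_mul, one_mul]
    refine (abs_add_le _ _).trans ?_
    have hb2 : |(∫ θ, (cy1 g u t θ * cy1 h v t θ -
            ((((n : ℝ) - 2) / 2) ^ 2 - d ^ 2) * (cy0 g u t θ * cy0 h v t θ)) ∂(sg n)) +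
        exp (-(α + β - ((n : ℝ) - 2)) * t) *
        ∫ θ : Sph n, ((scl β t v (θ : E n)) ^ (p + 1) / (p + 1) +
          (scl α t u (θ : E n)) ^ (q + 1) / (q + 1)) ∂(sg n)| ≤
        (exp ((g + h) * t) * (((g + 1) * Cu) * ((h + 1) * Cv) + l * (Cu * Cv))) * S +
        exp (-(α + β - ((n : ℝ) - 2)) * t) * ((exp (β * (p + 1) * t) * (Cv ^ (p + 1) / (p + 1)) +
          exp (α * (q + 1) * t) * (Cu ^ (q + 1) / (q + 1))) * S) := by
      refine (abs_add_le _ _).trans (add_le_add hI1 ?_)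
      rw [abs_mul, abs_of_pos (exp_pos _)]
      exact mul_le_mul_of_nonneg_left hI4 (exp_pos _).le
    refine (add_le_add hI2 hb2).trans (le_of_eq ?_)
    have hx1 : exp (e1 * t) = exp (-(α + β - ((n : ℝ) - 2)) * t) * exp (β * (p + 1) * t) := by
      rw [← exp_add, he1]
      congr 1
      ring
    have hx2 : exp (e2 * t) = exp (-(α + β - ((n : ℝ) - 2)) * t) * exp (α * (q + 1) * t) := by
      rw [← exp_add, he2]
      congr 1
      ring
    rw [hK1, hK2, hK3, hx1, hx2]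
    ring
  have hlim : ∀ e : ℝ, 0 < e → Tendsto (fun t => exp (e * t)) atBot (𝓝 0) := by
    intro e he
    exact Real.tendsto_exp_atBot.comp (Tendsto.const_mul_atBot he tendsto_id)
  have hT : Tendsto (fun t => K1 * exp ((g + h) * t) + K2 * exp (e1 * t) + K3 * exp (e2 * t))
      atBot (𝓝 0) := by
    have := (((hlim (g + h) (by (clear * - hg0 hh0; positivity))).const_mul K1).add
      ((hlim e1 he1p).const_mul K2)).add ((hlim e2 he2p).const_mul K3)
    simpa only [mul_zero, add_zero] using this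
  apply squeeze_zero_norm' _ hT
  filter_upwards [eventually_le_atBot (0 : ℝ)] with t ht
  rw [Real.norm_eq_abs]
  exact key t ht

end

end Vale.Agent.P100.RM
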