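import Mathlib
import Vale.Agent.P100.H373.L4

set_option linter.all false

/-! # P100, universal bound of the Hamiltonian (helper373) -/

open MeasureTheory Set Real Filter Topology

namespace Vale.Agent.P100.RM

/-- Abstract growth, local version. -/
lemma grow_absL {Hc J e : ℝ → ℝ} {δ c0 L : ℝ} (hδ : 0 < δ) (hc0 : 0 < c0) (he : ∀ t, 0 ≤ e t)
    (hec : Continuous e) (hJc : Continuous J) (hJ : ∀ t, c0 * e t ≤ J t)
    (hg : ∀ t1 t2, t1 ≤ t2 → t2 < L → exp (-δ * t2) * Hc t2 - exp (-δ * t1) * Hc t1 =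
      ∫ s in t1..t2, exp (-δ * s) * J s)
    (hl : Tendsto (fun t => exp (-δ * t) * Hc t) atBot (𝓝 0)) :
    (∀ t, t < L → 0 ≤ Hc t) ∧
    (∀ t1 t2, t1 ≤ t2 → t2 < L → Hc t1 + c0 * (∫ s in t1..t2, e s) ≤ Hc t2) ∧
    (∀ t1 t2, t1 ≤ t2 → t2 < L →
      c0 * (∫ s in t1..t2, exp (-δ * s) * e s) ≤ exp (-δ * t2) * Hc t2) := by
  have hJ0 : ∀ t, 0 ≤ J t := fun t => (mul_nonneg hc0.le (he t)).trans (hJ t)
  have hFc : Continuous fun s => exp (-δ * s) * J s := by fun_prop
  have hF0 : ∀ s, 0 ≤ exp (-δ * s) * J s := fun s => mul_nonneg (exp_pos _).le (hJ0 s)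
  have hmono : ∀ t1 t2, t1 ≤ t2 → t2 < L → exp (-δ * t1) * Hc t1 ≤ exp (-δ * t2) * Hc t2 := by
    intro t1 t2 h12 h2L
    have h3 : 0 ≤ ∫ s in t1..t2, exp (-δ * s) * J s :=
      intervalIntegral.integral_nonneg h12 fun s _ => hF0 s
    linarith only [h3, hg t1 t2 h12 h2L]
  have hnn : ∀ t, t < L → 0 ≤ exp (-δ * t) * Hc t := by
    intro t htL
    refine le_of_tendsto hl ?_
    filter_upwards [Filter.eventually_le_atBot t] with s hs
    exact hmono s t hs htL
  have hH0 : ∀ t, t < L → 0 ≤ Hc t := by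
    intro t htL
    have h1 := hnn t htL
    by_contra hc
    push Not at hc
    have h2 := mul_neg_of_pos_of_neg (exp_pos (-δ * t)) hc
    linarith only [h1, h2]
  refine ⟨hH0, ?_, ?_⟩
  · intro t1 t2 h12 h2L
    have h1 := hg t1 t2 h12 h2L
    have h2 : Hc t2 = exp (δ * (t2 - t1)) * Hc t1 +
        exp (δ * t2) * ∫ s in t1..t2, exp (-δ * s) * J s := by
      have h3 : exp (-δ * t2) * Hc t2 = exp (-δ * t1) * Hc t1 +
          ∫ s in t1..t2, exp (-δ * s) * J s := by linarith only [h1]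
      have h4 : Hc t2 = exp (δ * t2) * (exp (-δ * t2) * Hc t2) := by
        rw [← mul_assoc, ← Real.exp_add]
        have : δ * t2 + -δ * t2 = 0 := by ring
        rw [this, Real.exp_zero, one_mul]
      rw [h4, h3, mul_add, ← mul_assoc, ← Real.exp_add]
      congr 2
      congr 1
      ring
    have h5 : Hc t1 ≤ exp (δ * (t2 - t1)) * Hc t1 := by
      have : 1 ≤ exp (δ * (t2 - t1)) := Real.one_le_exp (mul_nonneg hδ.le (by linarith))
      nlinarith only [this, hH0 t1 (h12.trans_lt h2L)]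
    have h6 : c0 * (∫ s in t1..t2, e s) ≤ exp (δ * t2) * ∫ s in t1..t2, exp (-δ * s) * J s := by
      rw [← intervalIntegral.integral_const_mul, ← intervalIntegral.integral_const_mul]
      apply intervalIntegral.integral_mono_on h12
      · exact (hec.const_mul c0).intervalIntegrable _ _
      · exact (hFc.const_mul _).intervalIntegrable _ _
      · intro s hs
        rw [← mul_assoc, ← Real.exp_add]
        have h7 : 1 ≤ exp (δ * t2 + -δ * s) := by
          apply Real.one_le_exp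
          nlinarith only [hδ, hs.2]
        nlinarith only [h7, hJ s, hJ0 s]
    linarith only [h2, h5, h6]
  · intro t1 t2 h12 h2L
    have h1 := hg t1 t2 h12 h2L
    have h2 := hnn t1 (h12.trans_lt h2L)
    have h3 : c0 * (∫ s in t1..t2, exp (-δ * s) * e s) ≤ ∫ s in t1..t2, exp (-δ * s) * J s := by
      rw [← intervalIntegral.integral_const_mul]
      apply intervalIntegral.integral_mono_on h12
      · exact (by fun_prop : Continuous fun s => c0 * (exp (-δ * s) * e s)).intervalIntegrable _ _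
      · exact hFc.intervalIntegrable _ _
      · intro s hs
        have h7 := (exp_pos (-δ * s)).le
        have h8 := mul_le_mul_of_nonneg_left (hJ s) h7
        linarith only [h8]
    linarith only [h1, h2, h3]

/-- One step: integrate the local inequality over `[t, t + δ]`, with `T = δ ^ 2`. -/
theorem iter_stepL {L : ℝ} {H e : ℝ → ℝ} (he0 : ∀ t, 0 ≤ e t) (hei : Continuous e)
    {c0 C k T0 : ℝ} (hc0 : 0 < c0) (hC : 0 < C) (hT0 : 0 < T0)
    (hgrow : ∀ t1 t2, t1 ≤ t2 → t2 < L → H t1 + c0 * ∫ s in t1..t2, e s ≤ H t2)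
    (hloc : ∀ t T, t < L - 1 → 0 < T → T ≤ T0 →
      H t ≤ C * T * (e t + ∫ s in (t - 2 * T)..(t + 2 * T), e s) + C * T ^ (-k))
    {t δ : ℝ} (hδ : 0 < δ) (hδ1 : δ ≤ 1) (hδT : δ ^ 2 ≤ T0) (hpos : 0 ≤ H (t - 2)) (htL : t + 4 < L) :
    H t ≤ 2 * C / c0 * δ * H (t + 3 * δ) + C * (δ ^ 2) ^ (-k) := by
  have hmono : ∀ a b, a ≤ b → b < L → H a ≤ H b := by
    intro a b hab hbL
    have h1 := hgrow a b hab hbL
    have h2 : 0 ≤ ∫ s in a..b, e s := intervalIntegral.integral_nonneg hab fun s _ => he0 s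
    (clear * - h1 hc0 h2; nlinarith [mul_nonneg hc0.le h2])
  have hint : ∀ a b, IntervalIntegrable e volume a b := fun a b => hei.intervalIntegrable a b
  have hδ2 : 0 < δ ^ 2 := by (clear * - hδ; positivity)
  have hδ3 : δ ^ 2 ≤ δ := by nlinarith only [hδ, hδ1]
  -- energy of subintervals
  have hen : ∀ a b, t - 2 ≤ a → a ≤ b → b ≤ t + 3 * δ → (∫ s in a..b, e s) ≤ H (t + 3 * δ) / c0 := by
    intro a b ha hab hb
    rw [le_div_iff₀ hc0]
    have hbL : b < L := by linarith only [hb, hδ1, htL]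
    have h1 := hgrow a b hab hbL
    have h2 : 0 ≤ H a := hpos.trans (hmono _ _ ha (hab.trans_lt hbL))
    have h3 := hmono _ _ hb (by linarith only [hδ1, htL])
    linarith only [h1, h2, h3]
  set K : ℝ := C * δ ^ 2 * (H (t + 3 * δ) / c0) + C * (δ ^ 2) ^ (-k) with hK
  have hpt : ∀ s ∈ Icc t (t + δ), H t - K ≤ C * δ ^ 2 * e s := by
    intro s hs
    have hsL : s < L - 1 := by linarith only [hs.2, hδ1, htL]
    have h1 := hloc s (δ ^ 2) hsL hδ2 hδT
    have h2 : (∫ r in (s - 2 * δ ^ 2)..(s + 2 * δ ^ 2), e r) ≤ H (t + 3 * δ) / c0 := by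
      apply hen
      · nlinarith only [hδ3, hs.1]
      · linarith only [hδ2]
      · nlinarith only [hδ3, hs.2]
    have h3 : C * δ ^ 2 * (∫ r in (s - 2 * δ ^ 2)..(s + 2 * δ ^ 2), e r) ≤
        C * δ ^ 2 * (H (t + 3 * δ) / c0) := mul_le_mul_of_nonneg_left h2 (by (clear * - hC hδ; positivity))
    have h4 := hmono t s hs.1 (by linarith only [hsL])
    rw [hK]
    linarith only [h1, h3, h4]
  have hI : δ * (H t - K) ≤ C * δ ^ 2 * (H (t + 3 * δ) / c0) := by
    have h1 : (∫ _s in t..(t + δ), (H t - K)) ≤ ∫ s in t..(t + δ), C * δ ^ 2 * e s := by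
      apply intervalIntegral.integral_mono_on (by linarith only [hδ]) intervalIntegrable_const
        ((hint _ _).const_mul _)
      exact hpt
    rw [intervalIntegral.integral_const, intervalIntegral.integral_const_mul, smul_eq_mul] at h1
    have h2 : (∫ s in t..(t + δ), e s) ≤ H (t + 3 * δ) / c0 := by
      apply hen <;> linarith only [hδ]
    have h3 : C * δ ^ 2 * (∫ s in t..(t + δ), e s) ≤ C * δ ^ 2 * (H (t + 3 * δ) / c0) :=
      mul_le_mul_of_nonneg_left h2 (by positivity)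
    have h4 : t + δ - t = δ := by ring
    rw [h4] at h1
    linarith only [h1, h3]
  have hI2 : H t - K ≤ C * δ * (H (t + 3 * δ) / c0) := by
    have : δ * (H t - K) ≤ δ * (C * δ * (H (t + 3 * δ) / c0)) := by
      calc δ * (H t - K) ≤ C * δ ^ 2 * (H (t + 3 * δ) / c0) := hI
        _ = _ := by ring
    exact le_of_mul_le_mul_left this hδ
  have hHp : 0 ≤ H (t + 3 * δ) / c0 :=
    div_nonneg (hpos.trans (hmono _ _ (by linarith only [hδ]) (by linarith only [hδ1, htL]))) hc0.le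
  have h5 : C * δ ^ 2 * (H (t + 3 * δ) / c0) ≤ C * δ * (H (t + 3 * δ) / c0) := by
    apply mul_le_mul_of_nonneg_right _ hHp
    nlinarith only [hC, hδ3]
  have h6 : 2 * C / c0 * δ * H (t + 3 * δ) = 2 * (C * δ * (H (t + 3 * δ) / c0)) := by
    (clear * - hδ hc0 hC; field_simp)
  rw [h6]
  rw [hK] at hI2
  linarith only [hI2, h5]

/-- Universal bound: the growth function is bounded away from the end of its interval. -/
theorem iterL {c0 C k T0 : ℝ} (hc0 : 0 < c0) (hC : 0 < C) (hk : 0 < k) (hT0 : 0 < T0) :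
    ∃ M : ℝ, 0 < M ∧ ∀ (L : ℝ) (H e : ℝ → ℝ), (∀ t, 0 ≤ e t) → Continuous e →
      (∀ t1 t2, t1 ≤ t2 → t2 < L → H t1 + c0 * ∫ s in t1..t2, e s ≤ H t2) →
      (∀ t, t < L → 0 ≤ H t) →
      (∀ t T, t < L - 1 → 0 < T → T ≤ T0 →
        H t ≤ C * T * (e t + ∫ s in (t - 2 * T)..(t + 2 * T), e s) + C * T ^ (-k)) →
      ∀ t, t + 12 ≤ L → H t ≤ M := by
  -- parameters
  set C1 : ℝ := 2 * C / c0 with hC1
  have hC1p : 0 < C1 := by (clear * - hC hc0; positivity)
  have h4k : 0 < (4 : ℝ) ^ k := by positivity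
  obtain ⟨δ0, hδ0, hδ01, hδ0T, hδ0C⟩ : ∃ δ0 : ℝ, 0 < δ0 ∧ δ0 ≤ 1 ∧ δ0 ^ 2 ≤ T0 ∧
      2 * C1 * δ0 * (4 : ℝ) ^ k ≤ 1 := by
    refine ⟨min (min 1 T0) (1 / (2 * C1 * (4 : ℝ) ^ k)), ?_, ?_, ?_, ?_⟩
    · positivity
    · exact (min_le_left _ _).trans (min_le_left _ _)
    · have h1 : min (min 1 T0) (1 / (2 * C1 * (4 : ℝ) ^ k)) ≤ 1 :=
        (min_le_left _ _).trans (min_le_left _ _)
      have h2 : min (min 1 T0) (1 / (2 * C1 * (4 : ℝ) ^ k)) ≤ T0 :=
        (min_le_left _ _).trans (min_le_right _ _)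
      have h3 : 0 < min (min 1 T0) (1 / (2 * C1 * (4 : ℝ) ^ k)) := by positivity
      nlinarith only [h2, h1, h3]
    · have h1 : min (min 1 T0) (1 / (2 * C1 * (4 : ℝ) ^ k)) ≤ 1 / (2 * C1 * (4 : ℝ) ^ k) :=
        min_le_right _ _
      rw [le_div_iff₀ (by positivity)] at h1
      linarith only [h1]
  refine ⟨2 * C * (δ0 ^ 2) ^ (-k), by positivity, ?_⟩
  intro L H e he0 hei hgrow hH0 hloc t0 ht0L
  by_contra hcon
  push Not at hcon
  have hmono : ∀ a b, a ≤ b → b < L → H a ≤ H b := by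
    intro a b hab hbL
    have h1 := hgrow a b hab hbL
    have h2 : 0 ≤ ∫ s in a..b, e s := intervalIntegral.integral_nonneg hab fun s _ => he0 s
    nlinarith only [h1, hc0, h2]
  -- the sequence of steps
  let δ : ℕ → ℝ := fun j => δ0 * (1 / 2) ^ j
  have hδpos : ∀ j, 0 < δ j := fun j => by positivity
  have hδs : ∀ j, δ (j + 1) = δ j / 2 := by
    intro j; simp only [δ, pow_succ]; ring
  have hδle : ∀ j, δ j ≤ δ0 := by
    intro j
    have : (1 / 2 : ℝ) ^ j ≤ 1 := pow_le_one₀ (by norm_num) (by norm_num)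
    calc δ j = δ0 * (1 / 2) ^ j := rfl
      _ ≤ δ0 * 1 := mul_le_mul_of_nonneg_left this hδ0.le
      _ = δ0 := mul_one _
  let t : ℕ → ℝ := fun j => t0 + 6 * (δ0 - δ j)
  have ht_0 : t 0 = t0 := by simp only [one_div, inv_pow, pow_zero, inv_one, mul_one, sub_self, mul_zero, add_zero, t, δ]
  have hts : ∀ j, t (j + 1) = t j + 3 * δ j := by
    intro j; simp only [t]; rw [hδs]; ring
  have htge : ∀ j, t0 ≤ t j := by
    intro j; have := hδle j; simp only [t]; linarith only [this]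
  have htle : ∀ j, t j ≤ t0 + 6 * δ0 := by
    intro j; have := hδpos j; simp only [t]; linarith only [this]
  have hmain : ∀ j, 2 * C * ((δ j) ^ 2) ^ (-k) ≤ H (t j) := by
    intro j
    induction j with
    | zero =>
      rw [ht_0]
      have : δ 0 = δ0 := by simp [δ]
      rw [this]
      exact hcon.le
    | succ j ih =>
      have htj : t j + 4 < L := by
        have := htle j
        linarith only [this, hδ01, ht0L]
      have hpos : 0 ≤ H (t j - 2) := hH0 _ (by linarith only [htj])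
      have hst := iter_stepL he0 hei hc0 hC hT0 hgrow hloc (hδpos j)
        ((hδle j).trans hδ01) (by
          have h5 := hδle j; have h6 := hδpos j
          nlinarith only [h5, h6, hδ0T, hδ0]) hpos htj
      rw [← hC1, ← hts] at hst
      have h1 : H (t j) ≤ 2 * (C1 * δ j * H (t (j + 1))) := by linarith only [ih, hst]
      have hpw : ((δ (j + 1)) ^ 2) ^ (-k) = (4 : ℝ) ^ k * ((δ j) ^ 2) ^ (-k) := by
        rw [hδs]
        have h2 : (δ j / 2) ^ 2 = (1 / 4) * (δ j) ^ 2 := by ring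
        rw [h2, mul_rpow (by norm_num) (by positivity)]
        congr 1
        rw [rpow_neg (by norm_num), one_div, inv_rpow (by norm_num), inv_inv]
      rw [hpw]
      have hX : 0 ≤ H (t (j + 1)) := hH0 _ (by
        have h7 := htle (j + 1)
        linarith only [h7, hδ01, ht0L])
      have h3 : 2 * C1 * δ j * (4 : ℝ) ^ k ≤ 1 := by
        calc 2 * C1 * δ j * (4 : ℝ) ^ k ≤ 2 * C1 * δ0 * (4 : ℝ) ^ k := by
              have := hδle j
              (clear * - this hC hc0; gcongr)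
          _ ≤ 1 := hδ0C
      calc 2 * C * ((4 : ℝ) ^ k * ((δ j) ^ 2) ^ (-k)) = (4 : ℝ) ^ k * (2 * C * ((δ j) ^ 2) ^ (-k)) := by
            ring
        _ ≤ (4 : ℝ) ^ k * H (t j) := mul_le_mul_of_nonneg_left ih h4k.le
        _ ≤ (4 : ℝ) ^ k * (2 * (C1 * δ j * H (t (j + 1)))) := mul_le_mul_of_nonneg_left h1 h4k.le
        _ = (2 * C1 * δ j * (4 : ℝ) ^ k) * H (t (j + 1)) := by ring
        _ ≤ 1 * H (t (j + 1)) := mul_le_mul_of_nonneg_right h3 hX
        _ = H (t (j + 1)) := one_mul _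
  -- contradiction
  have hbd : ∀ j, 2 * C * ((δ j) ^ 2) ^ (-k) ≤ H (t0 + 6 * δ0) := fun j =>
    (hmain j).trans (hmono _ _ (htle j) (by linarith only [hδ01, ht0L]))
  have hδt : Tendsto δ atTop (𝓝[>] 0) := by
    rw [tendsto_nhdsWithin_iff]
    refine ⟨?_, Eventually.of_forall fun j => hδpos j⟩
    have := (tendsto_pow_atTop_nhds_zero_of_lt_one (r := (1 / 2 : ℝ)) (by norm_num) (by norm_num)).const_mul δ0
    simpa [δ] using this
  have hinf : Tendsto (fun x : ℝ => 2 * C * (x ^ 2) ^ (-k)) (𝓝[>] 0) atTop := by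
    apply Tendsto.const_mul_atTop (by positivity)
    have h1 : Tendsto (fun x : ℝ => x ^ 2) (𝓝[>] 0) (𝓝[>] 0) := by
      rw [tendsto_nhdsWithin_iff]
      refine ⟨?_, ?_⟩
      · have : Tendsto (fun x : ℝ => x ^ 2) (𝓝 0) (𝓝 (0 ^ 2)) := (continuous_pow 2).tendsto 0
        simpa using this.mono_left nhdsWithin_le_nhds
      · filter_upwards [self_mem_nhdsWithin] with x hx
        have : (0 : ℝ) < x := hx
        exact pow_pos this 2
    have h2 : Tendsto (fun x : ℝ => x ^ (-k)) (𝓝[>] 0) atTop := by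
      have h3 : Tendsto (fun x : ℝ => (x⁻¹) ^ k) (𝓝[>] 0) atTop :=
        (tendsto_rpow_atTop hk).comp tendsto_inv_nhdsGT_zero
      refine h3.congr' ?_
      filter_upwards [self_mem_nhdsWithin] with x hx
      have hx0 : (0 : ℝ) < x := hx
      rw [inv_rpow hx0.le, rpow_neg hx0.le]
    exact h2.comp h1
  have := (hinf.comp hδt).eventually (eventually_gt_atTop (H (t0 + 6 * δ0)))
  obtain ⟨j, hj⟩ := this.exists
  exact absurd (hbd j) (not_le.2 hj)

end Vale.Agent.P100.RM
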