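import Mathlib
import Vale.Agent.P100.H373.L5

set_option linter.all false

/-! # P100, universal energy bound (helper373) -/

open MeasureTheory Set Filter Topology Real

namespace Vale.Agent.P100.RM

noncomputable section

variable {n : ℕ}

/-- The growth package for the rescaled Hamiltonian, local version. -/
lemma growth_packL (hn : 3 ≤ n) {p q A B α β d L : ℝ} (hL : 1 < L) (hp : 0 < p) (hq : 0 < q)
    (hA : -2 < A) (hB : -2 < B) (h1 : α + 2 + A = β * p) (h2 : β + 2 + B = α * q)
    (hδ : 0 < α + β - ((n : ℝ) - 2))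
    (hd : |d| < ((n : ℝ) - 2) / 2)
    (hω1 : 0 < p * (β - ((n : ℝ) - 2) / 2 + d) - (α - ((n : ℝ) - 2) / 2 - d))
    (hω2 : 0 < q * (α - ((n : ℝ) - 2) / 2 - d) - (β - ((n : ℝ) - 2) / 2 + d))
    {c0 : ℝ} (hc0 : 0 < c0)
    (hc1 : c0 ≤ (p * (β - ((n : ℝ) - 2) / 2 + d) - (α - ((n : ℝ) - 2) / 2 - d)) / (p + 1))
    (hc2 : c0 ≤ (q * (α - ((n : ℝ) - 2) / 2 - d) - (β - ((n : ℝ) - 2) / 2 + d)) / (q + 1))
    {u v : E n → ℝ} (hs : LSol n p q A B L u v) :
    (∀ t, t < L → 0 ≤ Ham n p q d (scl α t u) (scl β t v)) ∧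
    (∀ t1 t2, t1 ≤ t2 → t2 < L → Ham n p q d (scl α t1 u) (scl β t1 v) +
      c0 * (∫ s in t1..t2, En n p q (scl α s u) (scl β s v)) ≤
        Ham n p q d (scl α t2 u) (scl β t2 v)) ∧
    (∀ t1 t2, t1 ≤ t2 → t2 < L →
      c0 * (∫ s in t1..t2, exp (-(α + β - ((n : ℝ) - 2)) * s) *
        En n p q (scl α s u) (scl β s v)) ≤
      exp (-(α + β - ((n : ℝ) - 2)) * t2) * Ham n p q d (scl α t2 u) (scl β t2 v)) := by
  set k1 : ℝ := (p * (β - ((n : ℝ) - 2) / 2 + d) - (α - ((n : ℝ) - 2) / 2 - d)) / (p + 1) with hk1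
  set k2 : ℝ := (q * (α - ((n : ℝ) - 2) / 2 - d) - (β - ((n : ℝ) - 2) / 2 + d)) / (q + 1) with hk2
  have hpos : ∀ s, (∀ x, 0 < scl α s u x) ∧ ∀ x, 0 < scl β s v x := fun s =>
    ⟨fun x => mul_pos (exp_pos _) (hs.pos_u _), fun x => mul_pos (exp_pos _) (hs.pos_v _)⟩
  have hcu : ∀ s, Continuous (scl α s u) := fun s =>
    continuous_const.mul (hs.continuous_u.comp (continuous_const_smul _))
  have hcv : ∀ s, Continuous (scl β s v) := fun s =>
    continuous_const.mul (hs.continuous_v.comp (continuous_const_smul _))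
  apply grow_absL (δ := α + β - ((n : ℝ) - 2)) hδ hc0
    (e := fun s => En n p q (scl α s u) (scl β s v))
    (J := fun s => ∫ θ : Sph n, (k1 * (scl β s v (θ : E n)) ^ (p + 1) +
      k2 * (scl α s u (θ : E n)) ^ (q + 1)) ∂(sg n))
    (fun t => (En_pos hn hp hq (hcu t) (hcv t) (hpos t).1 (hpos t).2).le)
    (continuous_En hp hq hs.continuous_u hs.continuous_v hs.pos_u hs.pos_v)
    (continuous_EnW hp hq k1 k2 hs.continuous_u hs.continuous_v)
  · intro t
    unfold En
    rw [← integral_const_mul]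
    have hc1 : Continuous fun θ : Sph n => (scl β t v (θ : E n)) ^ (p + 1) :=
      ((hcv t).comp continuous_subtype_val).rpow_const fun x => Or.inr (by linarith only [hp])
    have hc2 : Continuous fun θ : Sph n => (scl α t u (θ : E n)) ^ (q + 1) :=
      ((hcu t).comp continuous_subtype_val).rpow_const fun x => Or.inr (by linarith only [hq])
    apply integral_mono
    · exact ((hc1.add hc2).const_mul _).integrable_of_hasCompactSupport
        (HasCompactSupport.of_compactSpace _)
    · exact ((hc1.const_mul k1).add (hc2.const_mul k2)).integrable_of_hasCompactSupport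
        (HasCompactSupport.of_compactSpace _)
    · intro θ
      have e1 : 0 ≤ (scl β t v (θ : E n)) ^ (p + 1) := (rpow_pos_of_pos ((hpos t).2 _) _).le
      have e2 : 0 ≤ (scl α t u (θ : E n)) ^ (q + 1) := (rpow_pos_of_pos ((hpos t).1 _) _).le
      have e3 := mul_le_mul_of_nonneg_right (show c0 ≤ k1 by assumption) e1
      have e4 := mul_le_mul_of_nonneg_right (show c0 ≤ k2 by assumption) e2
      simp only
      linarith only [e3, e4]
  · intro t1 t2 h12 h2L
    exact growL hn hp hq hA hB h1 h2 hd hs h12 h2L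
  · exact grow_limL hn hL hp hq hA hB h1 h2 hd hω1 hω2 hs

/-- Positivity of the scaling exponent. -/
lemma delta_pos {N p q A B α β : ℝ} (hp : 0 < p) (hq : 0 < q) (hpq : 1 < p * q)
    (h1 : α + 2 + A = β * p) (h2 : β + 2 + B = α * q)
    (hw : N - 2 < (N + A) / (p + 1) + (N + B) / (q + 1)) : 0 < α + β - (N - 2) := by
  have hpq1 : 0 < p * q - 1 := by linarith only [hpq]
  have hp1 : 0 < p + 1 := by linarith only [hp]
  have hq1 : 0 < q + 1 := by linarith only [hq]
  rw [div_add_div _ _ hp1.ne' hq1.ne', lt_div_iff₀ (by positivity)] at hw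
  have e1 : (α + β - (N - 2)) * (p * q - 1) =
      (N + A) * (q + 1) + (p + 1) * (N + B) - (N - 2) * ((p + 1) * (q + 1)) := by
    have e2 : α * (p * q - 1) = 2 + A + p * (2 + B) := by
      linear_combination (-1) * h1 - p * h2
    have e3 : β * (p * q - 1) = 2 + B + q * (2 + A) := by
      linear_combination (-1) * h2 - q * h1
    linear_combination e2 + e3
  have e4 : 0 < (α + β - (N - 2)) * (p * q - 1) := by rw [e1]; linarith only [hw]
  exact (pos_iff_pos_of_mul_pos e4).2 hpq1

/-- **Universal energy bound**, at unit scale: for every solution on the punctured ball of radius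
`e^13` (no condition outside). -/
theorem energy_unit (hn : 3 ≤ n) {p q A B α β : ℝ} (hp : 0 < p) (hq : 0 < q) (hpq : 1 < p * q)
    (hA : -2 < A) (hB : -2 < B) (h1 : α + 2 + A = β * p) (h2 : β + 2 + B = α * q)
    (hw : (n : ℝ) - 2 < ((n : ℝ) + A) / (p + 1) + ((n : ℝ) + B) / (q + 1)) :
    ∃ C : ℝ, 0 < C ∧ ∀ u v : E n → ℝ, LSol n p q A B 13 u v → ∀ t : ℝ, t ≤ 0 →
      ∫ s in t..0, exp (-(α + β - ((n : ℝ) - 2)) * s) * En n p q (scl α s u) (scl β s v) ≤ C := by
  have hn3 : (3 : ℝ) ≤ n := by exact_mod_cast hn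
  have hδ := delta_pos hp hq hpq h1 h2 hw
  obtain ⟨d, hd, hω1, hω2⟩ := exists_drift hn3 hp hq hA hB h1 h2 hw
  set k1 : ℝ := (p * (β - ((n : ℝ) - 2) / 2 + d) - (α - ((n : ℝ) - 2) / 2 - d)) / (p + 1) with hk1
  set k2 : ℝ := (q * (α - ((n : ℝ) - 2) / 2 - d) - (β - ((n : ℝ) - 2) / 2 + d)) / (q + 1) with hk2
  have hk1p : 0 < k1 := div_pos hω1 (by linarith only [hp])
  have hk2p : 0 < k2 := div_pos hω2 (by linarith only [hq])
  set c0 : ℝ := min k1 k2 with hc0e
  have hc0 : 0 < c0 := lt_min hk1p hk2p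
  obtain ⟨C, k, T0, hC, hk, hT0, hloc⟩ := locL hn hp hq hpq hA hB α β d
  obtain ⟨M, hM, hiter⟩ := iterL hc0 hC hk hT0
  refine ⟨M / c0, div_pos hM hc0, ?_⟩
  intro u v hs t ht
  obtain ⟨g1, g2, g3⟩ := growth_packL hn (by norm_num : (1 : ℝ) < 13) hp hq hA hB h1 h2 hδ hd hω1
    hω2 hc0 (min_le_left _ _) (min_le_right _ _) hs
  have hH := hiter 13 (fun t => Ham n p q d (scl α t u) (scl β t v))
    (fun t => En n p q (scl α t u) (scl β t v))
    (fun t => (En_pos hn hp hq (continuous_const.mul (hs.continuous_u.comp (continuous_const_smul _)))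
      (continuous_const.mul (hs.continuous_v.comp (continuous_const_smul _)))
      (fun x => mul_pos (exp_pos _) (hs.pos_u _)) (fun x => mul_pos (exp_pos _) (hs.pos_v _))).le)
    (continuous_En hp hq hs.continuous_u hs.continuous_v hs.pos_u hs.pos_v) g2 g1 (by
      intro t T htL hT hT1
      have h3 := hloc (13 - t) _ _ (by linarith only [htL]) (scl_lsol hs h1 h2 t) T hT hT1
      have h4 : (∫ s in (-(2 * T))..(2 * T), En n p q (scl α s (scl α t u)) (scl β s (scl β t v))) =
          ∫ s in (t - 2 * T)..(t + 2 * T), En n p q (scl α s u) (scl β s v) := by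
        have h5 : (fun s => En n p q (scl α s (scl α t u)) (scl β s (scl β t v))) =
            fun s => (fun r => En n p q (scl α r u) (scl β r v)) (s + t) := by
          funext s
          rw [scl_scl, scl_scl]
        rw [h5, intervalIntegral.integral_comp_add_right
          (fun r => En n p q (scl α r u) (scl β r v)) t]
        congr 1 <;> ring
      rw [h4] at h3
      exact h3) 0 (by norm_num)
  have h6 := g3 t 0 ht (by norm_num)
  rw [mul_zero, exp_zero, one_mul] at h6
  rw [le_div_iff₀ hc0, mul_comm]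
  exact h6.trans hH

end

end Vale.Agent.P100.RM
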