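import Mathlib
import Vale.Agent.P100.H373.L6

set_option linter.all false

/-! # P100, the energy bound as a volume integral (helper373) -/

open MeasureTheory Set Filter Topology Real Metric
open scoped ENNReal

namespace Vale.Agent.P100.RM

noncomputable section

variable {n : ℕ}

lemma weight_polar {n' A p α β y s : ℝ} (hy : 0 < y) (h1 : α + 2 + A = β * p) :
    exp (n' * s) * (exp s ^ A * y ^ (p + 1)) =
      exp (-(α + β - (n' - 2)) * s) * (exp (β * s) * y) ^ (p + 1) := by
  rw [mul_rpow (exp_pos _).le hy.le, ← exp_mul, ← exp_mul, ← mul_assoc, ← mul_assoc, ← exp_add,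
    ← exp_add]
  congr 2
  linear_combination s * h1

theorem vol_energy (hn : 3 ≤ n) {p q A B α β C : ℝ} (hp : 0 < p) (hq : 0 < q)
    (h1 : α + 2 + A = β * p) (h2 : β + 2 + B = α * q)
    {u v : E n → ℝ} (hu : Continuous u) (hv : Continuous v) (pu : ∀ x, 0 < u x)
    (pv : ∀ x, 0 < v x)
    (hC : ∀ t : ℝ, t ≤ 0 →
      ∫ s in t..0, exp (-(α + β - ((n : ℝ) - 2)) * s) * En n p q (scl α s u) (scl β s v) ≤ C) :
    ∫⁻ x in ball (0 : E n) 1, ENNReal.ofReal (‖x‖ ^ A * v x ^ (p + 1) + ‖x‖ ^ B * u x ^ (q + 1)) ≤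
      ENNReal.ofReal C := by
  set δ : ℝ := α + β - ((n : ℝ) - 2) with hδ
  have hp1 : 0 < p + 1 := by linarith only [hp]
  have hq1 : 0 < q + 1 := by linarith only [hq]
  set F : E n → ℝ≥0∞ := (ball (0 : E n) 1).indicator
    (fun x => ENNReal.ofReal (‖x‖ ^ A * v x ^ (p + 1) + ‖x‖ ^ B * u x ^ (q + 1))) with hF
  have hFm : Measurable F := by
    apply Measurable.indicator _ measurableSet_ball
    have := hu.measurable
    have := hv.measurable
    fun_prop
  set g : ℝ → Sph n → ℝ := fun s w => exp (-δ * s) *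
    ((scl β s v (w : E n)) ^ (p + 1) + (scl α s u (w : E n)) ^ (q + 1)) with hg
  have hgc : Continuous (fun x : Sph n × ℝ => g x.2 x.1) := by
    have c1 : Continuous (fun x : Sph n × ℝ => scl β x.2 v (x.1 : E n)) := by
      unfold scl; fun_prop
    have c2 : Continuous (fun x : Sph n × ℝ => scl α x.2 u (x.1 : E n)) := by
      unfold scl; fun_prop
    exact (by fun_prop : Continuous fun x : Sph n × ℝ => exp (-δ * x.2)).mul
      ((c1.rpow_const fun _ => Or.inr hp1.le).add (c2.rpow_const fun _ => Or.inr hq1.le))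
  have hgm : Measurable (fun x : Sph n × ℝ => ENNReal.ofReal (g x.2 x.1)) :=
    hgc.measurable.ennreal_ofReal
  rw [← lintegral_indicator measurableSet_ball, ← hF, polar_exp (by omega) hFm]
  have hpt : ∀ (w : Sph n) (s : ℝ), ENNReal.ofReal (Real.exp (n * s)) *
      F (Real.exp s • (w : E n)) = (Iio (0 : ℝ)).indicator (fun s => ENNReal.ofReal (g s w)) s := by
    intro w s
    have hw : ‖Real.exp s • (w : E n)‖ = exp s := norm_expsmul s w
    by_cases hs : s < 0
    · have hm : Real.exp s • (w : E n) ∈ ball (0 : E n) 1 := by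
        rw [mem_ball_zero_iff, hw]
        have := Real.exp_lt_exp.2 hs
        rwa [Real.exp_zero] at this
      rw [indicator_of_mem (show s ∈ Iio (0 : ℝ) from hs), hF, indicator_of_mem hm,
        ← ENNReal.ofReal_mul (exp_pos _).le, hw]
      congr 1
      rw [mul_add, weight_polar (pv _) h1, weight_polar (pu _) h2, hg]
      simp only [scl]
      rw [mul_add, hδ]
      ring_nf
    · have hm : Real.exp s • (w : E n) ∉ ball (0 : E n) 1 := by
        rw [mem_ball_zero_iff, hw, not_lt]
        exact Real.one_le_exp (not_lt.1 hs)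
      rw [indicator_of_notMem (show s ∉ Iio (0 : ℝ) from hs), hF, indicator_of_notMem hm, mul_zero]
  have e1 : ∫⁻ w : Sph n, ∫⁻ s : ℝ, ENNReal.ofReal (Real.exp (n * s)) *
      F (Real.exp s • (w : E n)) ∂volume ∂(sg n) =
      ∫⁻ w : Sph n, (∫⁻ s in Iio (0 : ℝ), ENNReal.ofReal (g s w)) ∂(sg n) := by
    refine lintegral_congr fun w => ?_
    rw [← lintegral_indicator measurableSet_Iio]
    exact lintegral_congr (hpt w)
  rw [e1, lintegral_lintegral_swap (f := fun (w : Sph n) (s : ℝ) => ENNReal.ofReal (g s w))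
    hgm.aemeasurable]
  have hEc : Continuous (fun s => En n p q (scl α s u) (scl β s v)) :=
    continuous_En hp hq hu hv pu pv
  have hGc : Continuous (fun s => exp (-δ * s) * En n p q (scl α s u) (scl β s v)) := by
    fun_prop
  have hG0 : ∀ s, 0 ≤ exp (-δ * s) * En n p q (scl α s u) (scl β s v) := fun s =>
    mul_nonneg (exp_pos _).le (En_nonneg (scl_pos pu) (scl_pos pv))
  have hin : ∀ s : ℝ, ∫⁻ w : Sph n, ENNReal.ofReal (g s w) ∂(sg n) =
      ENNReal.ofReal (exp (-δ * s) * En n p q (scl α s u) (scl β s v)) := by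
    intro s
    have hc : Continuous (fun w : Sph n => g s w) :=
      hgc.comp (by fun_prop : Continuous fun w : Sph n => (w, s))
    rw [← ofReal_integral_eq_lintegral_ofReal (integrable_sph hc)
      (Filter.Eventually.of_forall fun w => by
        have a1 := (scl_pos (α := β) (t := s) pv (w : E n)).le
        have a2 := (scl_pos (α := α) (t := s) pu (w : E n)).le
        show (0 : ℝ) ≤ exp (-δ * s) * _
        positivity)]
    congr 1
    rw [hg]
    simp only
    rw [integral_const_mul]
    rfl
  rw [lintegral_congr hin]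
  have hsub : Iio (0 : ℝ) ⊆ ⋃ k : ℕ, Ioc (-(k : ℝ)) 0 := by
    intro s hs
    obtain ⟨k, hk⟩ := exists_nat_gt (-s)
    exact mem_iUnion.2 ⟨k, by linarith only [hk], le_of_lt hs⟩
  refine (lintegral_mono_set hsub).trans ?_
  rw [setLIntegral_iUnion_of_directed]
  · refine iSup_le fun k => ?_
    have h3 := hC (-(k : ℝ)) (by simp)
    rw [intervalIntegral.integral_of_le (by simp)] at h3
    rw [← ofReal_integral_eq_lintegral_ofReal (hGc.integrableOn_Ioc)
      (Filter.Eventually.of_forall hG0)]
    exact ENNReal.ofReal_le_ofReal h3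
  · apply directed_of_isDirected_le
    intro i j hij
    apply Ioc_subset_Ioc_left
    have : (i : ℝ) ≤ j := by exact_mod_cast hij
    linarith only [this]

end

end Vale.Agent.P100.RM
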