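import Mathlib
import Vale.Agent.P100.H373.L7
import Vale.Agent.P100.H373.Defs

set_option linter.all false

/-! # P100, extension, affine scaling, energy bounds on balls (helper373) -/

open MeasureTheory Set Filter Topology Real Metric
open scoped ENNReal

namespace Vale.Agent.P100.RM

noncomputable section

variable {n : ℕ}

/-- Regular positive extension from a ball. -/
lemma ext_reg {U : Set (E n)} (hU : IsOpen U) {R : ℝ} (hR : 0 < R)
    (hsub : closedBall (0 : E n) (2 * R) ⊆ U) {w : E n → ℝ} (hc : ContinuousOn w U)
    (h2 : ContDiffOn ℝ 2 w (U \ {0})) (hpos : ∀ x ∈ U, 0 < w x) :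
    ∃ W : E n → ℝ, ContDiffOn ℝ 2 W {0}ᶜ ∧ Continuous W ∧ (∀ x, 0 < W x) ∧
      ∀ x, ‖x‖ ≤ R → W x = w x := by
  let f : ContDiffBump (0 : E n) := ⟨R, 2 * R, hR, by linarith only [hR]⟩
  have hfz : ∀ x, x ∉ U → f x = 0 := by
    intro x hx
    apply f.zero_of_le_dist
    show 2 * R ≤ dist x 0
    by_contra hcon
    push Not at hcon
    exact hx (hsub (mem_closedBall.2 hcon.le))
  have hev : ∀ x, x ∉ U → (fun y => f y * w y + (1 - f y)) =ᶠ[𝓝 x] fun _ => 1 := by
    intro x hx
    have hlt : 2 * R < dist x 0 := by
      by_contra hcon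
      push Not at hcon
      exact hx (hsub (mem_closedBall.2 hcon))
    have hop : {z : E n | 2 * R < dist z 0} ∈ 𝓝 x :=
      (isOpen_lt continuous_const (by fun_prop)).mem_nhds hlt
    filter_upwards [hop] with z hz
    have hz' : 2 * R < dist z 0 := hz
    have : f z = 0 := f.zero_of_le_dist (by show 2 * R ≤ dist z 0; exact hz'.le)
    rw [this]; ring
  refine ⟨fun y => f y * w y + (1 - f y), ?_, ?_, ?_, ?_⟩
  · intro x hx
    apply ContDiffAt.contDiffWithinAt
    by_cases hxU : x ∈ U
    · have h3 : ContDiffAt ℝ 2 w x :=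
        h2.contDiffAt ((hU.sdiff isClosed_singleton).mem_nhds ⟨hxU, hx⟩)
      exact (f.contDiffAt.mul h3).add (contDiffAt_const.sub f.contDiffAt)
    · exact contDiffAt_const.congr_of_eventuallyEq (hev x hxU)
  · rw [continuous_iff_continuousAt]
    intro x
    by_cases hxU : x ∈ U
    · have h3 : ContinuousAt w x := hc.continuousAt (hU.mem_nhds hxU)
      exact (f.continuous.continuousAt.mul h3).add
        (continuousAt_const.sub f.continuous.continuousAt)
    · exact continuousAt_const.congr (hev x hxU).symm
  · intro x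
    show 0 < f x * w x + (1 - f x)
    by_cases hxU : x ∈ U
    · have h3 := hpos x hxU
      have h4 : 0 ≤ f x := f.nonneg
      have h5 : f x ≤ 1 := f.le_one
      rcases h4.eq_or_lt with h6 | h6
      · rw [← h6]; norm_num
      · have := mul_pos h6 h3
        linarith only [this, h5]
    · rw [hfz x hxU]; norm_num
  · intro x hx
    have : f x = 1 := f.one_of_mem_closedBall (by
      show x ∈ closedBall (0 : E n) R
      rwa [mem_closedBall, dist_zero_right])
    show f x * w x + (1 - f x) = w x
    rw [this]; ring

lemma lap_add_left (u : E n → ℝ) (a x : E n) :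
    Laplacian.laplacian (fun z => u (a + z)) x = Laplacian.laplacian u (a + x) := by
  have h1 := congrFun (InnerProductSpace.laplacian_eq_iteratedFDeriv_stdOrthonormalBasis
    (fun z => u (a + z))) x
  have h2 := congrFun (InnerProductSpace.laplacian_eq_iteratedFDeriv_stdOrthonormalBasis u) (a + x)
  rw [h1, h2]
  refine Finset.sum_congr rfl fun i _ => ?_
  rw [iteratedFDeriv_comp_add_left]

lemma lap_affine (u : E n → ℝ) (a : E n) (c s : ℝ) (x : E n) :
    Laplacian.laplacian (fun z => c * u (a + s • z)) x =
      c * s ^ 2 * Laplacian.laplacian u (a + s • x) := by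
  have h := laplacian_scale c s (fun z => u (a + z)) x
  rw [lap_add_left] at h
  exact h

/-- Affine change of variables. -/
lemma lint_affine (f : E n → ℝ≥0∞) (a : E n) {s : ℝ} (hs : 0 < s) :
    ∫⁻ x in ball a s, f x = ENNReal.ofReal (s ^ n) * ∫⁻ y in ball (0 : E n) 1, f (a + s • y) := by
  let g : E n ≃ₜ E n := (Homeomorph.smulOfNeZero s hs.ne').trans (Homeomorph.addLeft a)
  have hg : ∀ y, g y = a + s • y := fun y => rfl
  have hmap : (volume : Measure (E n)) = ENNReal.ofReal (s ^ n) • Measure.map g volume := by
    have h1 : Measure.map g (volume : Measure (E n)) =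
        ENNReal.ofReal |(s ^ n)⁻¹| • (volume : Measure (E n)) := by
      have h2 : (g : E n → E n) = (fun x => a + x) ∘ (fun x => s • x) := by
        ext y; rfl
      rw [h2, ← Measure.map_map (measurable_const_add a) (measurable_const_smul s),
        Measure.map_addHaar_smul _ hs.ne', finrank_euclideanSpace_fin, Measure.map_smul,
        map_add_left_eq_self]
    rw [h1, smul_smul, ← ENNReal.ofReal_mul (by positivity), abs_of_pos (by positivity),
      mul_inv_cancel₀ (by positivity), ENNReal.ofReal_one, one_smul]
  have hpre : g ⁻¹' (ball a s) = ball (0 : E n) 1 := by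
    ext y
    rw [mem_preimage, hg, mem_ball, mem_ball_zero_iff, dist_eq_norm, add_sub_cancel_left, norm_smul,
      Real.norm_of_nonneg hs.le]
    constructor
    · intro h; by_contra h3; push Not at h3; nlinarith only [h, h3, hs]
    · intro h; nlinarith only [h, hs]
  conv_lhs => rw [hmap]
  rw [Measure.restrict_smul, lintegral_smul_measure, g.measurableEmbedding.restrict_map,
    g.measurableEmbedding.lintegral_map, hpre, smul_eq_mul]
  rfl

end

end Vale.Agent.P100.RM
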