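import Mathlib
import Vale.Agent.P100.H373.L8

set_option linter.all false

/-! # P100, energy bounds on balls (helper373) -/

open MeasureTheory Set Filter Topology Real Metric
open scoped ENNReal

namespace Vale.Agent.P100.RM

noncomputable section

variable {n : ℕ}

/-- Universal energy bound on a small ball, general center. -/
theorem energy_gen (hn : 3 ≤ n) {p q A B α β : ℝ} (hp : 0 < p) (hq : 0 < q) (hpq : 1 < p * q)
    (hA : -2 < A) (hB : -2 < B) (h1 : α + 2 + A = β * p) (h2 : β + 2 + B = α * q)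
    (hw : (n : ℝ) - 2 < ((n : ℝ) + A) / (p + 1) + ((n : ℝ) + B) / (q + 1)) :
    ∃ C : ℝ, 0 < C ∧ ∀ (a : E n) (s : ℝ), 0 < s → ∀ (w1 w2 : E n → ℝ),
      (∀ y, w1 (a + s • y) = s ^ A * ‖y‖ ^ A) → (∀ y, w2 (a + s • y) = s ^ B * ‖y‖ ^ B) →
      ∀ (U : Set (E n)), IsOpen U → closedBall a (2 * exp 13 * s) ⊆ U →
      ∀ u v : E n → ℝ, ContinuousOn u U → ContinuousOn v U →
      ContDiffOn ℝ 2 u (U \ {a}) → ContDiffOn ℝ 2 v (U \ {a}) →
      (∀ x ∈ U, 0 < u x) → (∀ x ∈ U, 0 < v x) →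
      (∀ x ∈ U, x ≠ a → -(Laplacian.laplacian u x) = w1 x * v x ^ p) →
      (∀ x ∈ U, x ≠ a → -(Laplacian.laplacian v x) = w2 x * u x ^ q) →
      ∫⁻ x in ball a s, ENNReal.ofReal (w1 x * v x ^ (p + 1) + w2 x * u x ^ (q + 1)) ≤
        ENNReal.ofReal (C * s ^ ((n : ℝ) - 2 - α - β)) := by
  obtain ⟨C, hC, hE⟩ := energy_unit hn hp hq hpq hA hB h1 h2 hw
  refine ⟨C, hC, ?_⟩
  intro a s hs w1 w2 hw1 hw2 U hU hsub u v cu cv du dv pu pv eu ev
  set T : E n → E n := fun y => a + s • y with hT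
  have hTc : Continuous T := by rw [hT]; fun_prop
  have hTd : ContDiff ℝ 2 T := by rw [hT]; fun_prop
  set U' : Set (E n) := T ⁻¹' U with hU'
  have hU'o : IsOpen U' := hU.preimage hTc
  have hsub' : closedBall (0 : E n) (2 * exp 13) ⊆ U' := by
    intro y hy
    apply hsub
    rw [mem_closedBall, dist_zero_right] at hy
    rw [mem_closedBall, dist_eq_norm]
    show ‖a + s • y - a‖ ≤ _
    rw [add_sub_cancel_left, norm_smul, Real.norm_of_nonneg hs.le]
    nlinarith only [hy, hs]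
  have hne : ∀ y : E n, y ≠ 0 → T y ≠ a := by
    intro y hy h
    have h3 : s • y = 0 := by
      have : a + s • y = a := h
      simpa using this
    exact hy ((smul_eq_zero.1 h3).resolve_left hs.ne')
  have hmaps : MapsTo T (U' \ {0}) (U \ {a}) := fun y hy => ⟨hy.1, hne y hy.2⟩
  have key : ∀ (w : E n → ℝ) (γ : ℝ), ContinuousOn w U → ContDiffOn ℝ 2 w (U \ {a}) →
      (∀ x ∈ U, 0 < w x) → ∃ W : E n → ℝ, ContDiffOn ℝ 2 W {0}ᶜ ∧ Continuous W ∧ (∀ x, 0 < W x) ∧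
      ∀ x, ‖x‖ ≤ exp 13 → W x = s ^ γ * w (a + s • x) := by
    intro w γ cw dw pw
    exact ext_reg hU'o (exp_pos 13) hsub' (continuousOn_const.mul (cw.comp hTc.continuousOn
      (fun y hy => hy))) (contDiffOn_const.mul (dw.comp hTd.contDiffOn hmaps))
      (fun y hy => mul_pos (rpow_pos_of_pos hs _) (pw _ hy))
  obtain ⟨W, dW, cW, pW, eW⟩ := key u α cu du pu
  obtain ⟨Z, dZ, cZ, pZ, eZ⟩ := key v β cv dv pv
  have heq : ∀ (w z W Z : E n → ℝ) (wt : E n → ℝ) (P A' γ η : ℝ), γ + 2 + A' = η * P →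
      (∀ x, ‖x‖ ≤ exp 13 → W x = s ^ γ * w (a + s • x)) →
      (∀ x, ‖x‖ ≤ exp 13 → Z x = s ^ η * z (a + s • x)) →
      (∀ x ∈ U, 0 < z x) →
      (∀ y, wt (a + s • y) = s ^ A' * ‖y‖ ^ A') →
      (∀ x ∈ U, x ≠ a → -(Laplacian.laplacian w x) = wt x * z x ^ P) →
      ∀ x, x ≠ 0 → ‖x‖ < exp 13 → -(Laplacian.laplacian W x) = ‖x‖ ^ A' * Z x ^ P := by
    intro w z W Z wt P A' γ η hγ eW eZ pz hwt ew x hx hxL
    have hev : W =ᶠ[𝓝 x] fun y => s ^ γ * w (a + s • y) := by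
      have hop : {y : E n | ‖y‖ < exp 13} ∈ 𝓝 x :=
        (isOpen_lt continuous_norm continuous_const).mem_nhds hxL
      filter_upwards [hop] with y hy
      exact eW y (le_of_lt hy)
    have hxU : a + s • x ∈ U := hsub' (by
      rw [mem_closedBall, dist_zero_right]
      have := exp_pos 13
      linarith only [this, hxL])
    rw [(InnerProductSpace.laplacian_congr_nhds hev).self_of_nhds, lap_affine, ← mul_neg,
      ew _ hxU (hne x hx), hwt, eZ x hxL.le,
      mul_rpow (rpow_pos_of_pos hs _).le (pz _ hxU).le, ← rpow_mul hs.le, ← hγ, rpow_add hs,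
      rpow_add hs]
    have : s ^ (2 : ℝ) = s ^ 2 := by norm_num
    rw [this]
    ring
  have hL : LSol n p q A B 13 W Z := ⟨dW, dZ, cW, cZ, pW, pZ,
    heq u v W Z w1 p A α β h1 eW eZ pv hw1 eu, heq v u Z W w2 q B β α h2 eZ eW pu hw2 ev⟩
  have hvol := vol_energy hn hp hq h1 h2 cW cZ pW pZ (hE W Z hL)
  rw [lint_affine _ a hs]
  have hpt : ∀ y ∈ ball (0 : E n) 1,
      ENNReal.ofReal (w1 (a + s • y) * v (a + s • y) ^ (p + 1) +
        w2 (a + s • y) * u (a + s • y) ^ (q + 1)) =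
      ENNReal.ofReal (s ^ (-(α + β + 2))) *
        ENNReal.ofReal (‖y‖ ^ A * Z y ^ (p + 1) + ‖y‖ ^ B * W y ^ (q + 1)) := by
    intro y hy
    rw [mem_ball_zero_iff] at hy
    have hyL : ‖y‖ ≤ exp 13 := by
      have := Real.one_le_exp (show (0 : ℝ) ≤ 13 by norm_num)
      linarith only [this, hy]
    have hyU : a + s • y ∈ U := hsub' (by
      rw [mem_closedBall, dist_zero_right]
      have := exp_pos 13
      linarith only [this, hyL])
    rw [← ENNReal.ofReal_mul (rpow_pos_of_pos hs _).le, hw1, hw2, eZ y hyL, eW y hyL,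
      mul_rpow (rpow_pos_of_pos hs _).le (pv _ hyU).le,
      mul_rpow (rpow_pos_of_pos hs _).le (pu _ hyU).le, ← rpow_mul hs.le, ← rpow_mul hs.le]
    congr 1
    have f1 : s ^ A = s ^ (-(α + β + 2)) * s ^ (β * (p + 1)) := by
      rw [← rpow_add hs]
      congr 1
      linear_combination h1
    have f2 : s ^ B = s ^ (-(α + β + 2)) * s ^ (α * (q + 1)) := by
      rw [← rpow_add hs]
      congr 1
      linear_combination h2
    rw [f1, f2]
    ring
  rw [setLIntegral_congr_fun measurableSet_ball hpt, lintegral_const_mul' _ _ ENNReal.ofReal_ne_top]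
  calc ENNReal.ofReal (s ^ n) * (ENNReal.ofReal (s ^ (-(α + β + 2))) *
        ∫⁻ y in ball (0 : E n) 1, ENNReal.ofReal (‖y‖ ^ A * Z y ^ (p + 1) + ‖y‖ ^ B * W y ^ (q + 1)))
      ≤ ENNReal.ofReal (s ^ n) * (ENNReal.ofReal (s ^ (-(α + β + 2))) * ENNReal.ofReal C) := by
        gcongr
    _ = ENNReal.ofReal (C * s ^ ((n : ℝ) - 2 - α - β)) := by
        rw [← ENNReal.ofReal_mul (rpow_pos_of_pos hs _).le, ← ENNReal.ofReal_mul (by positivity)]
        congr 1
        have : s ^ ((n : ℝ) - 2 - α - β) = s ^ n * s ^ (-(α + β + 2)) := by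
          rw [← rpow_natCast s n, ← rpow_add hs]
          congr 1
          ring
        rw [this]
        ring

/-- **Universal energy bound** for the Henon-Lane-Emden system on punctured balls. -/
theorem energy_ball (hn : 3 ≤ n) {p q A B α β : ℝ} (hp : 0 < p) (hq : 0 < q) (hpq : 1 < p * q)
    (hA : -2 < A) (hB : -2 < B) (h1 : α + 2 + A = β * p) (h2 : β + 2 + B = α * q)
    (hw : (n : ℝ) - 2 < ((n : ℝ) + A) / (p + 1) + ((n : ℝ) + B) / (q + 1)) :
    ∃ C : ℝ, 1 ≤ C ∧ ∀ (R : ℝ), 0 < R → ∀ u v : E n → ℝ, IsPositiveBallSolution n p q A B R u v →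
      ∫⁻ x in ball (0 : E n) (R / C),
        ENNReal.ofReal (‖x‖ ^ A * v x ^ (p + 1) + ‖x‖ ^ B * u x ^ (q + 1)) ≤
        ENNReal.ofReal (C * R ^ ((n : ℝ) - 2 - α - β)) := by
  obtain ⟨C, hC, hE⟩ := energy_gen hn hp hq hpq hA hB h1 h2 hw
  set κ : ℝ := 4 * exp 13 with hκ
  have hκ0 : 0 < κ := by positivity
  set m : ℝ := (n : ℝ) - 2 - α - β with hm
  have hκ1 : 1 ≤ κ := by
    have := Real.one_le_exp (show (0 : ℝ) ≤ 13 by norm_num)
    rw [hκ]; linarith only [this]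
  refine ⟨max κ (C * κ ^ (-m)), hκ1.trans (le_max_left _ _), ?_⟩
  intro R hR u v hs
  set s : ℝ := R / κ with hsd
  have hs0 : 0 < s := div_pos hR hκ0
  have hw' : ∀ (A' : ℝ) (y : E n), ‖(0 : E n) + s • y‖ ^ A' = s ^ A' * ‖y‖ ^ A' := by
    intro A' y
    rw [zero_add, norm_smul, Real.norm_of_nonneg hs0.le, mul_rpow hs0.le (norm_nonneg _)]
  have hsub : closedBall (0 : E n) (2 * exp 13 * s) ⊆ ball 0 R := by
    apply closedBall_subset_ball
    have : 2 * exp 13 * s = R / 2 := by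
      rw [hsd, hκ]
      have := (exp_pos 13).ne'
      field_simp
      ring
    rw [this]
    linarith only [hR]
  have key := hE 0 s hs0 (fun x => ‖x‖ ^ A) (fun x => ‖x‖ ^ B) (hw' A) (hw' B) (ball 0 R) isOpen_ball
    hsub u v hs.continuousOn_u hs.continuousOn_v hs.contDiffOn_u hs.contDiffOn_v hs.pos_u hs.pos_v
    hs.eq_u hs.eq_v
  refine (lintegral_mono_set (ball_subset_ball ?_)).trans (key.trans (ENNReal.ofReal_le_ofReal ?_))
  · rw [hsd]
    exact div_le_div_of_nonneg_left hR.le hκ0 (le_max_left _ _)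
  · have e1 : s ^ m = κ ^ (-m) * R ^ m := by
      rw [hsd, div_rpow hR.le hκ0.le, rpow_neg hκ0.le, div_eq_inv_mul]
    rw [e1, ← mul_assoc]
    exact mul_le_mul_of_nonneg_right (le_max_right _ _) (rpow_pos_of_pos hR _).le

/-- Universal energy bound for the Lane-Emden system, arbitrary center. -/
theorem energy_LE (hn : 3 ≤ n) {p q α β : ℝ} (hp : 0 < p) (hq : 0 < q) (hpq : 1 < p * q)
    (h1 : α + 2 = β * p) (h2 : β + 2 = α * q)
    (hw : (n : ℝ) - 2 < (n : ℝ) / (p + 1) + (n : ℝ) / (q + 1)) :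
    ∃ C κ : ℝ, 0 < C ∧ 1 ≤ κ ∧ ∀ (Ω : Set (E n)), IsOpen Ω → ∀ u v : E n → ℝ,
      IsPositiveLaneEmdenSolution n p q Ω u v → ∀ (a : E n) (s : ℝ), 0 < s →
      closedBall a (κ * s) ⊆ Ω →
      ∫⁻ x in ball a s, ENNReal.ofReal (v x ^ (p + 1) + u x ^ (q + 1)) ≤
        ENNReal.ofReal (C * s ^ ((n : ℝ) - 2 - α - β)) := by
  obtain ⟨C, hC, hE⟩ := energy_gen hn (A := 0) (B := 0) hp hq hpq (by norm_num) (by norm_num)
    (α := α) (β := β) (by linarith only [h1]) (by linarith only [h2]) (by simpa using hw)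
  refine ⟨C, 2 * exp 13, hC, by
    have := Real.one_le_exp (show (0 : ℝ) ≤ 13 by norm_num)
    linarith only [this], ?_⟩
  intro Ω hΩ u v hs a s hs0 hsub
  have key := hE a s hs0 (fun _ => 1) (fun _ => 1) (fun y => by simp) (fun y => by simp) Ω hΩ hsub
    u v hs.contDiffOn_u.continuousOn hs.contDiffOn_v.continuousOn
    (hs.contDiffOn_u.mono diff_subset) (hs.contDiffOn_v.mono diff_subset) hs.pos_u hs.pos_v
    (fun x hx _ => by rw [hs.eq_u x hx, one_mul]) (fun x hx _ => by rw [hs.eq_v x hx, one_mul])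
  simpa only [one_mul] using key

end

end Vale.Agent.P100.RM
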