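import Mathlib
import Vale.Agent.P100.H373.L9

set_option linter.all false

/-! # P100, universal pointwise estimates for the Lane-Emden system (helper373) -/

open MeasureTheory Set Filter Topology Real Metric
open scoped ENNReal

namespace Vale.Agent.P100.RM

noncomputable section

variable {n : ℕ}

/-- Concentration at a point where `u` is maximal up to a factor is impossible on large scales. -/
theorem conc (hn : 3 ≤ n) {p q α β : ℝ} (hp : 0 < p) (hq : 0 < q) (hpq : 1 < p * q)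
    (hα : 0 < α) (hβ : 0 < β)
    (h1 : α + 2 = β * p) (h2 : β + 2 = α * q)
    (hw : (n : ℝ) - 2 < (n : ℝ) / (p + 1) + (n : ℝ) / (q + 1)) :
    ∃ N0 : ℝ, 0 < N0 ∧ ∀ (Ω : Set (E n)), IsOpen Ω → ∀ u v : E n → ℝ,
      IsPositiveLaneEmdenSolution n p q Ω u v → ∀ (a : E n) (d K : ℝ), 0 < d → 0 < K →
      closedBall a (d / 2) ⊆ Ω →
      (∀ y ∈ closedBall a (d / 2), u y ≤ (2 * K) ^ α ∧ v y ≤ (2 * K) ^ β) → u a = K ^ α →
      d * K ≤ N0 := by
  obtain ⟨C, κ, hC, hκ, hE⟩ := energy_LE hn hp hq hpq h1 h2 hw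
  obtain ⟨Cg, hCg, hg⟩ := grad_sup (n := n) (by omega)
  have hδ : 0 < α + β - ((n : ℝ) - 2) := delta_pos (A := 0) (B := 0) hp hq hpq
    (by linarith only [h1]) (by linarith only [h2]) (by simpa using hw)
  set δ : ℝ := α + β - ((n : ℝ) - 2) with hδd
  set τ : ℝ := min (1 / 2) (1 / (8 * Cg * 2 ^ α)) with hτ
  have h2α : (0 : ℝ) < 2 ^ α := by positivity
  have hτ0 : 0 < τ := by positivity
  have hτ1 : τ ≤ 1 / 2 := min_le_left _ _
  have hτ2 : τ * (8 * Cg * 2 ^ α) ≤ 1 := by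
    have : τ ≤ 1 / (8 * Cg * 2 ^ α) := min_le_right _ _
    rwa [le_div_iff₀ (by positivity)] at this
  set V : ℝ := (volume : Measure (E n)).real (ball 0 1) with hV
  have hV0 : 0 < V := by
    rw [hV, measureReal_def]
    exact ENNReal.toReal_pos (measure_ball_pos volume (0 : E n) one_pos).ne' measure_ball_lt_top.ne
  have hκ0 : 0 < κ := by linarith only [hκ]
  set Q : ℝ := C * (2 * κ) ^ δ * 2 ^ (q + 1) / (τ ^ n * V) with hQ
  have hQ0 : 0 < Q := by positivity
  refine ⟨max (max 2 (2 * κ * τ)) (Q ^ (1 / δ)), by positivity, ?_⟩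
  intro Ω hΩ u v hs a d K hd hK hsub hbd hua
  by_contra hcon
  push Not at hcon
  have hN2 : 2 < d * K := lt_of_le_of_lt ((le_max_left _ _).trans (le_max_left _ _)) hcon
  have hNκ : 2 * κ * τ < d * K := lt_of_le_of_lt ((le_max_right _ _).trans (le_max_left _ _)) hcon
  have hNQ : Q ^ (1 / δ) < d * K := lt_of_le_of_lt (le_max_right _ _) hcon
  have hK1 : 1 / K < d / 2 := by
    rw [div_lt_iff₀ hK]; linarith only [hN2]
  have h2K : 0 < 2 * K := by positivity
  set l : ℝ := 1 / (2 * K) with hl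
  have hl0 : 0 < l := by positivity
  have hll : l + l = 1 / K := by rw [hl]; field_simp; norm_num
  -- gradient bound
  have hgrad : ∀ y ∈ closedBall a l, ‖fderiv ℝ u y‖ ≤ 2 * Cg * (2 * K) ^ (α + 1) := by
    intro y hy
    have hyb : closedBall y l ⊆ closedBall a (d / 2) := by
      intro z hz
      rw [mem_closedBall] at hy hz ⊢
      have := dist_triangle z y a
      linarith only [this, hy, hz, hll, hK1]
    have key := hg u Ω y l hl0 hΩ (hyb.trans hsub) hs.contDiffOn_u ((2 * K) ^ α)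
      ((2 * K) ^ (α + 2)) (fun z hz => by
        obtain ⟨b1, b2⟩ := hbd z (hyb hz)
        have hzΩ := hsub (hyb hz)
        have p1 := hs.pos_u z hzΩ
        have p2 := hs.pos_v z hzΩ
        refine ⟨by rw [abs_of_pos p1]; exact b1, ?_⟩
        rw [← abs_neg, hs.eq_u z hzΩ, abs_of_pos (rpow_pos_of_pos p2 _)]
        calc v z ^ p ≤ ((2 * K) ^ β) ^ p := rpow_le_rpow p2.le b2 hp.le
          _ = (2 * K) ^ (α + 2) := by rw [← rpow_mul h2K.le, ← h1])
    refine key.trans (le_of_eq ?_)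
    have e1 : (2 * K) ^ (α + 1) = (2 * K) ^ α * (2 * K) := by rw [rpow_add h2K, rpow_one]
    have e2 : (2 * K) ^ (α + 2) = (2 * K) ^ α * (2 * K) ^ 2 := by
      rw [rpow_add h2K]; norm_num
    rw [e1, e2, hl]
    field_simp
    ring
  -- lower bound on a ball
  have hlow : ∀ y ∈ ball a (τ / K), K ^ α / 2 ≤ u y := by
    intro y hy
    have hyl : ball a (τ / K) ⊆ closedBall a l := by
      apply (ball_subset_ball _).trans ball_subset_closedBall
      rw [hl, div_le_div_iff₀ hK h2K]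
      nlinarith only [hτ1, hK]
    have hsubl : closedBall a l ⊆ Ω := by
      apply (closedBall_subset_closedBall _).trans hsub
      linarith only [hll, hl0, hK1]
    have hdiff : ∀ z ∈ ball a (τ / K), DifferentiableAt ℝ u z := fun z hz =>
      (hs.contDiffOn_u.contDiffAt (hΩ.mem_nhds (hsubl (hyl hz)))).differentiableAt (by norm_num)
    have hmv := (convex_ball a (τ / K)).norm_image_sub_le_of_norm_fderiv_le hdiff
      (fun z hz => hgrad z (hyl hz)) hy (mem_ball_self (by positivity : 0 < τ / K))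
    rw [Real.norm_eq_abs, hua] at hmv
    have hdist : ‖a - y‖ ≤ τ / K := by
      rw [mem_ball, dist_comm, dist_eq_norm] at hy
      exact hy.le
    have e1 : 2 * Cg * (2 * K) ^ (α + 1) * ‖a - y‖ ≤ K ^ α / 2 := by
      calc 2 * Cg * (2 * K) ^ (α + 1) * ‖a - y‖ ≤ 2 * Cg * (2 * K) ^ (α + 1) * (τ / K) :=
            mul_le_mul_of_nonneg_left hdist (by positivity)
        _ = (τ * (8 * Cg * 2 ^ α)) * (K ^ α / 2) := by
            rw [rpow_add h2K, rpow_one, mul_rpow (by norm_num) hK.le]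
            field_simp
            ring
        _ ≤ 1 * (K ^ α / 2) := mul_le_mul_of_nonneg_right hτ2 (by positivity)
        _ = K ^ α / 2 := one_mul _
    have e2 := (abs_le.1 (hmv.trans e1)).2
    linarith only [e2]
  -- energy
  set s : ℝ := d / (2 * κ) with hsd
  have hs0 : 0 < s := by positivity
  have hss : τ / K ≤ s := by
    rw [hsd, div_le_div_iff₀ hK (by positivity)]
    linarith only [hNκ]
  have hen := hE Ω hΩ u v hs a s hs0 (by
    have : κ * s = d / 2 := by rw [hsd]; field_simp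
    rw [this]
    exact hsub)
  have hlow2 : ENNReal.ofReal ((K ^ α / 2) ^ (q + 1) * ((τ / K) ^ n * V)) ≤
      ∫⁻ x in ball a s, ENNReal.ofReal (v x ^ (p + 1) + u x ^ (q + 1)) := by
    have e1 : ∫⁻ _x in ball a (τ / K), ENNReal.ofReal ((K ^ α / 2) ^ (q + 1)) ≤
        ∫⁻ x in ball a (τ / K), ENNReal.ofReal (v x ^ (p + 1) + u x ^ (q + 1)) := by
      apply setLIntegral_mono' measurableSet_ball
      intro x hx
      apply ENNReal.ofReal_le_ofReal
      have hxΩ : x ∈ Ω := hsub (by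
        have h5 := mem_ball.1 hx
        rw [mem_closedBall]
        have h6 : τ / K ≤ 1 / K := by
          apply div_le_div_of_nonneg_right _ hK.le
          linarith only [hτ1]
        linarith only [h5, h6, hK1])
      have h3 : (K ^ α / 2) ^ (q + 1) ≤ u x ^ (q + 1) :=
        rpow_le_rpow (by positivity) (hlow x hx) (by linarith only [hq])
      have h4 : 0 ≤ v x ^ (p + 1) := rpow_nonneg (hs.pos_v x hxΩ).le _
      linarith only [h3, h4]
    refine le_trans (le_of_eq ?_) (e1.trans (lintegral_mono_set (ball_subset_ball hss)))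
    rw [lintegral_const, Measure.restrict_apply MeasurableSet.univ, univ_inter,
      Measure.addHaar_ball_of_pos _ _ (by positivity : 0 < τ / K), finrank_euclideanSpace_fin,
      ENNReal.ofReal_mul (by positivity), ENNReal.ofReal_mul (by positivity), hV,
      measureReal_def, ENNReal.ofReal_toReal measure_ball_lt_top.ne]
  have hfin := (ENNReal.ofReal_le_ofReal_iff (by positivity)).1 (hlow2.trans hen)
  -- conclusion
  have hKδ : (K ^ α / 2) ^ (q + 1) * ((τ / K) ^ n * V) = K ^ δ * (τ ^ n * V / 2 ^ (q + 1)) := by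
    rw [div_rpow (by positivity) (by norm_num), ← rpow_mul hK.le, div_pow, ← rpow_natCast K n]
    have : K ^ (α * (q + 1)) = K ^ δ * K ^ (n : ℝ) := by
      rw [← rpow_add hK]
      congr 1
      rw [hδd]
      linear_combination (-1) * h2
    rw [this]
    field_simp
  have hsδ : s ^ ((n : ℝ) - 2 - α - β) = (2 * κ) ^ δ * d ^ (-δ) := by
    have : (n : ℝ) - 2 - α - β = -δ := by rw [hδd]; ring
    rw [this, hsd, div_rpow hd.le (by positivity), rpow_neg (by positivity : (0 : ℝ) ≤ 2 * κ),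
      div_inv_eq_mul, mul_comm]
  rw [hKδ, hsδ] at hfin
  have hdδ : 0 < d ^ δ := rpow_pos_of_pos hd _
  have hfin2 : (d * K) ^ δ ≤ Q := by
    rw [mul_rpow hd.le hK.le, hQ, le_div_iff₀ (by positivity)]
    have e3 : d ^ (-δ) * d ^ δ = 1 := by rw [← rpow_add hd, neg_add_cancel, rpow_zero]
    have h2q : (0 : ℝ) < 2 ^ (q + 1) := by positivity
    calc d ^ δ * K ^ δ * (τ ^ n * V)
        = (K ^ δ * (τ ^ n * V / 2 ^ (q + 1))) * (d ^ δ * 2 ^ (q + 1)) := by field_simp
      _ ≤ (C * ((2 * κ) ^ δ * d ^ (-δ))) * (d ^ δ * 2 ^ (q + 1)) :=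
          mul_le_mul_of_nonneg_right hfin (by positivity)
      _ = C * (2 * κ) ^ δ * 2 ^ (q + 1) * (d ^ (-δ) * d ^ δ) := by ring
      _ = _ := by rw [e3, mul_one]
  have hfin3 : d * K ≤ Q ^ (1 / δ) := by
    rw [one_div, Real.le_rpow_inv_iff_of_pos (by positivity) hQ0.le hδ]
    exact hfin2
  linarith only [hfin3, hNQ]

/-- Swapping the unknowns. -/
theorem LE_symm {p q : ℝ} {Ω : Set (E n)} {u v : E n → ℝ}
    (h : IsPositiveLaneEmdenSolution n p q Ω u v) : IsPositiveLaneEmdenSolution n q p Ω v u :=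
  ⟨h.contDiffOn_v, h.contDiffOn_u, h.pos_v, h.pos_u, h.eq_v, h.eq_u⟩

/-- **Universal estimate**, on balls. -/
theorem point_LE (hn : 3 ≤ n) {p q α β : ℝ} (hp : 0 < p) (hq : 0 < q) (hpq : 1 < p * q)
    (hα : 0 < α) (hβ : 0 < β)
    (h1 : α + 2 = β * p) (h2 : β + 2 = α * q)
    (hw : (n : ℝ) - 2 < (n : ℝ) / (p + 1) + (n : ℝ) / (q + 1)) :
    ∃ N0 : ℝ, 0 < N0 ∧ ∀ (Ω : Set (E n)), IsOpen Ω → ∀ u v : E n → ℝ,
      IsPositiveLaneEmdenSolution n p q Ω u v → ∀ (x0 : E n) (r : ℝ), 0 < r →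
      closedBall x0 r ⊆ Ω → u x0 ≤ (N0 / r) ^ α ∧ v x0 ≤ (N0 / r) ^ β := by
  obtain ⟨N1, hN1, H1⟩ := conc hn hp hq hpq hα hβ h1 h2 hw
  obtain ⟨N2, hN2, H2⟩ := conc hn hq hp (by linarith only [hpq]) hβ hα h2 h1
    (by linarith only [hw])
  refine ⟨max N1 N2, lt_max_of_lt_left hN1, ?_⟩
  intro Ω hΩ u v hs x0 r hr hsub
  set m : E n → ℝ := fun x => max (u x ^ (1 / α)) (v x ^ (1 / β)) with hm
  set φ : E n → ℝ := fun x => (r - ‖x - x0‖) * m x with hφ
  have hcu : ContinuousOn u (closedBall x0 r) := hs.contDiffOn_u.continuousOn.mono hsub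
  have hcv : ContinuousOn v (closedBall x0 r) := hs.contDiffOn_v.continuousOn.mono hsub
  have hmc : ContinuousOn m (closedBall x0 r) :=
    ContinuousOn.sup (hcu.rpow_const fun x _ => Or.inr (by positivity))
      (hcv.rpow_const fun x _ => Or.inr (by positivity))
  have hφc : ContinuousOn φ (closedBall x0 r) :=
    (by fun_prop : Continuous fun x : E n => r - ‖x - x0‖).continuousOn.mul hmc
  obtain ⟨x1, hx1, hmax⟩ := (isCompact_closedBall x0 r).exists_isMaxOn
    ⟨x0, mem_closedBall_self hr.le⟩ hφc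
  have hmpos : ∀ x ∈ closedBall x0 r, 0 < m x := fun x hx =>
    lt_max_of_lt_left (rpow_pos_of_pos (hs.pos_u x (hsub hx)) _)
  set K : ℝ := m x1 with hK
  have hK0 : 0 < K := hmpos x1 hx1
  set d : ℝ := r - ‖x1 - x0‖ with hd
  have hφ0 : φ x0 = r * m x0 := by
    rw [hφ]; simp
  have hφ1 : φ x1 = d * K := rfl
  have hmain : r * m x0 ≤ d * K := by
    rw [← hφ0, ← hφ1]
    exact hmax (mem_closedBall_self hr.le)
  have hd0 : 0 < d := by
    have h3 := mul_pos hr (hmpos x0 (mem_closedBall_self hr.le))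
    have h4 : 0 < d * K := lt_of_lt_of_le h3 hmain
    exact (pos_iff_pos_of_mul_pos h4).2 hK0
  have hball : ∀ y ∈ closedBall x1 (d / 2), y ∈ closedBall x0 r ∧ m y ≤ 2 * K := by
    intro y hy
    rw [mem_closedBall, dist_eq_norm] at hy
    have e1 : ‖y - x0‖ ≤ ‖y - x1‖ + ‖x1 - x0‖ := by
      have := norm_add_le (y - x1) (x1 - x0)
      rwa [sub_add_sub_cancel] at this
    have e2 : ‖y - x0‖ ≤ r - d / 2 := by linarith only [e1, hy, hd]
    have hyb : y ∈ closedBall x0 r := by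
      rw [mem_closedBall, dist_eq_norm]; linarith only [e2, hd0]
    refine ⟨hyb, ?_⟩
    have e3 : φ y ≤ φ x1 := hmax hyb
    rw [hφ1] at e3
    have e4 : (d / 2) * m y ≤ φ y := by
      show _ ≤ (r - ‖y - x0‖) * m y
      exact mul_le_mul_of_nonneg_right (by linarith only [e2]) (hmpos y hyb).le
    have e5 : (d / 2) * m y ≤ (d / 2) * (2 * K) := by linarith only [e3, e4]
    exact le_of_mul_le_mul_left e5 (by positivity)
  have hpow : ∀ {w γ M : ℝ}, 0 < w → 0 < γ → w ^ (1 / γ) ≤ M → w ≤ M ^ γ := by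
    intro w γ M hw hγ h
    calc w = (w ^ (1 / γ)) ^ γ := by rw [← rpow_mul hw.le, one_div, inv_mul_cancel₀ hγ.ne', rpow_one]
      _ ≤ M ^ γ := rpow_le_rpow (rpow_nonneg hw.le _) h hγ.le
  have hsub1 : closedBall x1 (d / 2) ⊆ Ω := fun y hy => hsub (hball y hy).1
  have hb : ∀ y ∈ closedBall x1 (d / 2), u y ≤ (2 * K) ^ α ∧ v y ≤ (2 * K) ^ β := by
    intro y hy
    obtain ⟨b1, b2⟩ := hball y hy
    exact ⟨hpow (hs.pos_u y (hsub b1)) hα ((le_max_left _ _).trans b2),
      hpow (hs.pos_v y (hsub b1)) hβ ((le_max_right _ _).trans b2)⟩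
  have hpe : ∀ {w γ : ℝ}, 0 < w → 0 < γ → w = (w ^ (1 / γ)) ^ γ := by
    intro w γ hw hγ
    rw [← rpow_mul hw.le, one_div, inv_mul_cancel₀ hγ.ne', rpow_one]
  have hdK : d * K ≤ max N1 N2 := by
    have hx1Ω := hsub hx1
    rcases max_choice (u x1 ^ (1 / α)) (v x1 ^ (1 / β)) with h | h
    · have hKe : K = u x1 ^ (1 / α) := h
      exact (H1 Ω hΩ u v hs x1 d K hd0 hK0 hsub1 hb
        (by rw [hKe]; exact hpe (hs.pos_u x1 hx1Ω) hα)).trans (le_max_left _ _)
    · have hKe : K = v x1 ^ (1 / β) := h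
      exact (H2 Ω hΩ v u (LE_symm hs) x1 d K hd0 hK0 hsub1 (fun y hy => (hb y hy).symm)
        (by rw [hKe]; exact hpe (hs.pos_v x1 hx1Ω) hβ)).trans (le_max_right _ _)
  have hx0Ω := hsub (mem_closedBall_self hr.le)
  have hm0 : m x0 ≤ max N1 N2 / r := by
    rw [le_div_iff₀ hr]
    linarith only [hmain, hdK]
  exact ⟨hpow (hs.pos_u x0 hx0Ω) hα ((le_max_left _ _).trans hm0),
    hpow (hs.pos_v x0 hx0Ω) hβ ((le_max_right _ _).trans hm0)⟩

/-- **Universal singularity and decay estimates.** -/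
theorem universal_LE (hn : 3 ≤ n) {p q α β : ℝ} (hp : 0 < p) (hq : 0 < q) (hpq : 1 < p * q)
    (hα : 0 < α) (hβ : 0 < β)
    (h1 : α + 2 = β * p) (h2 : β + 2 = α * q)
    (hw : (n : ℝ) - 2 < (n : ℝ) / (p + 1) + (n : ℝ) / (q + 1)) :
    ∃ C : ℝ, 0 < C ∧ ∀ (Ω : Set (E n)), IsOpen Ω → Ωᶜ.Nonempty → ∀ u v : E n → ℝ,
      IsPositiveLaneEmdenSolution n p q Ω u v → ∀ x ∈ Ω,
      u x ≤ C * infDist x Ωᶜ ^ (-α) ∧ v x ≤ C * infDist x Ωᶜ ^ (-β) := by
  obtain ⟨N, hN, H⟩ := point_LE hn hp hq hpq hα hβ h1 h2 hw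
  have h2N : 0 < 2 * N := by positivity
  refine ⟨max ((2 * N) ^ α) ((2 * N) ^ β), lt_max_of_lt_left (rpow_pos_of_pos h2N _), ?_⟩
  intro Ω hΩ hne u v hs x hx
  set d : ℝ := infDist x Ωᶜ with hd
  have hd0 : 0 < d := by
    rw [hd, ← hΩ.isClosed_compl.notMem_iff_infDist_pos hne]
    simpa using hx
  have hsub : closedBall x (d / 2) ⊆ Ω := by
    intro y hy
    by_contra hyΩ
    have h3 : d ≤ dist x y := infDist_le_dist_of_mem hyΩ
    rw [mem_closedBall, dist_comm] at hy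
    linarith only [h3, hy, hd0]
  obtain ⟨k1, k2⟩ := H Ω hΩ u v hs x (d / 2) (by positivity) hsub
  have e : ∀ γ : ℝ, (N / (d / 2)) ^ γ = (2 * N) ^ γ * d ^ (-γ) := by
    intro γ
    have : N / (d / 2) = 2 * N / d := by field_simp
    rw [this, div_rpow h2N.le hd0.le, rpow_neg hd0.le, div_eq_mul_inv]
  rw [e] at k1 k2
  exact ⟨k1.trans (mul_le_mul_of_nonneg_right (le_max_left _ _) (rpow_pos_of_pos hd0 _).le),
    k2.trans (mul_le_mul_of_nonneg_right (le_max_right _ _) (rpow_pos_of_pos hd0 _).le)⟩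

end

end Vale.Agent.P100.RM
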