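import Mathlib
import Vale.Agent.P100.H373.L10

/-! # P100, universal estimates: final forms (helper373) -/

open MeasureTheory Set Real Metric

namespace Vale.Agent.P100.RM

lemma exps {p q A B : ℝ} (hpq : 1 < p * q) :
    ∃ α β : ℝ, α = (2 + A + p * (2 + B)) / (p * q - 1) ∧ β = (2 + B + q * (2 + A)) / (p * q - 1) ∧
      α + 2 + A = β * p ∧ β + 2 + B = α * q := by
  have h : p * q - 1 ≠ 0 := by linarith
  refine ⟨_, _, rfl, rfl, ?_, ?_⟩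
  · rw [div_add' _ _ _ h, div_add' _ _ _ h, div_mul_eq_mul_div, div_left_inj' h]; ring
  · rw [div_add' _ _ _ h, div_add' _ _ _ h, div_mul_eq_mul_div, div_left_inj' h]; ring

/-- (2) -/
theorem energy_final (n : ℕ) (p q A B : ℝ) (hn : 3 ≤ n) (hp : 0 < p) (hq : 0 < q)
    (hpq : 1 < p * q) (hA : -2 < A) (hB : -2 < B)
    (hw : (n : ℝ) - 2 < ((n : ℝ) + A) / (p + 1) + ((n : ℝ) + B) / (q + 1)) :
    ∃ C : ℝ, 1 ≤ C ∧ ∀ R : ℝ, 0 < R → ∀ u v : EuclideanSpace ℝ (Fin n) → ℝ,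
      IsPositiveBallSolution n p q A B R u v →
      ∫⁻ x in ball 0 (R / C),
        ENNReal.ofReal (‖x‖ ^ A * v x ^ (p + 1) + ‖x‖ ^ B * u x ^ (q + 1)) ≤
      ENNReal.ofReal
        (C * R ^ ((n : ℝ) - 2 - ((2 + A) * (q + 1) + (2 + B) * (p + 1)) / (p * q - 1))) := by
  obtain ⟨α, β, hα, hβ, h1, h2⟩ := exps (A := A) (B := B) hpq
  obtain ⟨C, hC, H⟩ := energy_ball hn hp hq hpq hA hB h1 h2 hw
  refine ⟨C, hC, fun R hR u v hs => (H R hR u v hs).trans (le_of_eq ?_)⟩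
  have : (n : ℝ) - 2 - α - β =
      (n : ℝ) - 2 - ((2 + A) * (q + 1) + (2 + B) * (p + 1)) / (p * q - 1) := by
    rw [hα, hβ]; ring
  rw [this]

/-- (3) -/
theorem universal_final (n : ℕ) (p q : ℝ) (hn : 3 ≤ n) (hp : 0 < p) (hq : 0 < q)
    (hpq : 1 < p * q) (hw : ((n : ℝ) - 2) / n < 1 / (p + 1) + 1 / (q + 1)) :
    ∃ C : ℝ, 0 < C ∧ ∀ Ω : Set (EuclideanSpace ℝ (Fin n)), IsOpen Ω → Ωᶜ.Nonempty →
      ∀ u v : EuclideanSpace ℝ (Fin n) → ℝ, IsPositiveLaneEmdenSolution n p q Ω u v →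
      ∀ x ∈ Ω, u x ≤ C * infDist x Ωᶜ ^ (-(2 * (p + 1) / (p * q - 1))) ∧
        v x ≤ C * infDist x Ωᶜ ^ (-(2 * (q + 1) / (p * q - 1))) := by
  obtain ⟨α, β, hα, hβ, h1, h2⟩ := exps (A := 0) (B := 0) hpq
  have hpq1 : 0 < p * q - 1 := by linarith
  have hα' : α = 2 * (p + 1) / (p * q - 1) := by rw [hα]; ring
  have hβ' : β = 2 * (q + 1) / (p * q - 1) := by rw [hβ]; ring
  have hn0 : (0 : ℝ) < n := by
    have : (3 : ℝ) ≤ n := by exact_mod_cast hn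
    linarith
  have hw' : (n : ℝ) - 2 < (n : ℝ) / (p + 1) + (n : ℝ) / (q + 1) := by
    rw [div_lt_iff₀ hn0] at hw
    have e : (1 / (p + 1) + 1 / (q + 1)) * (n : ℝ) = (n : ℝ) / (p + 1) + (n : ℝ) / (q + 1) := by
      ring
    rwa [e] at hw
  rw [← hα', ← hβ']
  exact universal_LE hn hp hq hpq (by rw [hα']; positivity) (by rw [hβ']; positivity)
    (by linarith only [h1]) (by linarith only [h2]) hw'

end Vale.Agent.P100.RM
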